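import Vale.Agent.P307.R2.H287.Atomic
import Vale.Agent.P307.R2.H287.Bdd
import Vale.Agent.P307.R2.H229.TreeE
import Vale.Agent.P307.R2.H427.EMap
import Vale.Agent.P307.R2.H806.RealX
import Vale.Agent.P307.R2.H68.Ec

/-!
Atomic models over a set `X` whose closed traces, of cofinally many smaller sizes, behave well.
-/

universe u v

open Set Cardinal Function

namespace Vale.Agent.P307.R2.H301

open Vale.Agent.P307.R2.H541 Vale.Agent.P307.R2.H541.PG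
open Vale.Agent.P307.R2.H68 (Clo exists_clo)

variable {C : Type u}

/-! ### Closed sets -/

/-- The closed set generated by `z`. -/
def gen (φ : Finset C → Set C) (z : Set C) : Set C := ⋂₀ {H | Clo φ H ∧ z ⊆ H}

section gen

variable {φ : Finset C → Set C} {z z' H : Set C}

theorem clo_gen : Clo φ (gen φ z) := by
  intro s hs x hx H hH
  exact hH.1 s (fun a ha => hs ha H hH) hx

theorem sub_gen : z ⊆ gen φ z := fun _ hx _ hH => hH.2 hx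

theorem gen_sub (h : Clo φ H) (hz : z ⊆ H) : gen φ z ⊆ H := fun _ hx => hx H ⟨h, hz⟩

theorem gen_mono (h : z ⊆ z') : gen φ z ⊆ gen φ z' := gen_sub clo_gen (h.trans sub_gen)

theorem clo_left {ψ : Finset C → Set C} (h : Clo (fun s => φ s ∪ ψ s) H) : Clo φ H :=
  fun s hs => subset_union_left.trans (h s hs)

theorem clo_right {ψ : Finset C → Set C} (h : Clo (fun s => φ s ∪ ψ s) H) : Clo ψ H :=
  fun s hs => subset_union_right.trans (h s hs)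

end gen

/-! ### Levels -/

/-- The models and the elementary maps of a level `τ` below the size of the strong submodels: `S`
is the family of the models of size `τ`, `T` the family of the models of size `< τ`. -/
structure Lv (M : PG C) (τ : Cardinal.{u}) where
  Γ : M.EM τ
  S : Set (Set C)
  T : Set (Set C)
  lt : τ < M.χ
  S_card : ∀ E ∈ S, #E ≤ τ
  SU : ∀ (ι : Type u) [LinearOrder ι] [WellFoundedLT ι] [Nonempty ι], #ι ≤ τ →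
    ∀ F : ι → Set C, Monotone F → (∀ i, F i ∈ S) → (⋃ i, F i) ∈ S
  im : ∀ E ∈ S, ∀ f : C → C, Γ.E E f → f '' E ∈ S
  tame : ∀ E ∈ S, ∀ f : C → C, (∀ A ⊆ E, #A < τ → ∃ g ∈ M.G, ∀ a ∈ A, g a = f a) → Γ.E E f
  sat : ∀ E ∈ S, ∀ A ⊆ E, #A < τ → ∀ D : Set C, #D < τ →
    ∃ g ∈ M.G, (∀ a ∈ A, g a = a) ∧ ∀ d ∈ D, g d ∈ E
  T_card : ∀ t ∈ T, #t < τ
  glue : ∀ t : ℕ → Set C, Monotone t → (∀ n, t n ∈ T) → (⋃ n, t n) ∈ S → ∀ f : C → C,
    (∀ n, ∃ g ∈ M.G, ∀ a ∈ t n, g a = f a) → Γ.E (⋃ n, t n) f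
  filt : ∀ R : ℕ → Set C, Monotone R → (∀ n, R n ∈ M.T) → (⋃ n, R n) ∈ M.S →
    ∃ φ : Finset C → Set C, (∀ s, #(φ s) ≤ τ) ∧ ∀ H, Clo φ H → #H ≤ τ →
      (⋃ n, R n) ∩ H ∈ S ∧ ∃ t : ℕ → Set C, Monotone t ∧ (∀ n, t n ∈ T) ∧ (∀ n, t n ⊆ R n) ∧
        ⋃ n, t n = (⋃ n, R n) ∩ H

variable {M : PG C} {τ : Cardinal.{u}}

/-- The behaviour of the closed traces of `X` at the level `τ`. -/
structure TrX (Λ : Lv M τ) (X : Set C) (φ : Finset C → Set C) : Prop where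
  card : ∀ s, #(φ s) ≤ τ
  /-- Maps of a closed trace which preserve the types of the tiny pieces are elementary. -/
  tame : ∀ H, Clo φ H → #H ≤ τ → ∀ f : C → C,
    (∀ A ⊆ X ∩ H, #A < τ → ∃ g ∈ M.G, ∀ a ∈ A, g a = f a) → Λ.Γ.E (X ∩ H) f
  /-- Continuity. -/
  lim : ∀ (ι : Type u) [LinearOrder ι] [WellFoundedLT ι] [Nonempty ι], #ι ≤ τ →
    ∀ H : ι → Set C, Monotone H → (∀ i, Clo φ (H i)) → (∀ i, #(H i) ≤ τ) → ∀ f : C → C,
      (∀ i, ∀ A ⊆ X ∩ H i, #A < τ → ∃ g ∈ M.G, ∀ a ∈ A, g a = f a) →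
        ∀ A ⊆ X ∩ ⋃ i, H i, #A < τ → ∃ g ∈ M.G, ∀ a ∈ A, g a = f a

/-- Shrinking of the isolating sets for the tuples of a model `N` over `X`. -/
structure TrN (M : PG C) (τ : Cardinal.{u}) (X N : Set C) (φ : Finset C → Set C) : Prop where
  card : ∀ s, #(φ s) ≤ τ
  shrink : ∀ H, Clo φ H → #H ≤ τ → ∀ e ⊆ N ∩ H, #e < τ →
    (∃ B ⊆ X, #B < M.χ ∧ M.Isol B X e) → ∃ B ⊆ X ∩ H, #B < τ ∧ M.Isol B X e

theorem Lv.ap (Λ : Lv M τ) : ℵ₀ ≤ τ := Λ.Γ.hτ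

/-- Continuity for elementary maps. -/
theorem TrX.limE {Λ : Lv M τ} {X : Set C} {φ : Finset C → Set C} (h : TrX Λ X φ) (ι : Type u)
    [LinearOrder ι] [WellFoundedLT ι] [Nonempty ι] (hι : #ι ≤ τ) (H : ι → Set C) (hH : Monotone H)
    (hφ : ∀ i, Clo φ (H i)) (hc : ∀ i, #(H i) ≤ τ) (f : C → C)
    (hf : ∀ i, Λ.Γ.E (X ∩ H i) f) : Λ.Γ.E (X ∩ ⋃ i, H i) f :=
  h.tame _ (Clo.iUnion hH.directed_le hφ) ((mk_iUnion_le _).trans ((mul_le_mul' hι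
    (ciSup_le' hc)).trans (mul_eq_self Λ.ap).le)) f
    (h.lim ι hι H hH hφ hc f fun i _ hA hAc => Λ.Γ.restr (hf i) hA hAc)

theorem Lv.union_le (Λ : Lv M τ) {A B : Set C} (hA : #A ≤ τ) (hB : #B ≤ τ) :
    #(A ∪ B : Set C) ≤ τ := Λ.Γ.union_le hA hB

theorem Lv.emap (Λ : Lv M τ) {ν : Cardinal.{u}} (hν : ν < τ) : M.EMap ν Λ.Γ.E where
  mono := fun h h' => Λ.Γ.mono h h'
  congr := fun h h' => Λ.Γ.congr h fun x hx => (h' x hx).symm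
  smul := fun hg h => Λ.Γ.comp_inv h hg
  aut := fun hD h => Λ.Γ.small h (hD.trans_lt hν)

/-- Density of the isolated types, from the behaviour of the closed traces at one level. -/
theorem TrX.dens {Λ : Lv M τ} {X : Set C} {φ : Finset C → Set C} (h : TrX Λ X φ)
    {σ ν : Cardinal.{u}} (hν : ℵ₀ ≤ ν) (hσν : σ ≤ ν) (hντ : ν < τ)
    (hT : ∀ E : Set C, #E ≤ σ → ∀ g ∈ M.G,
      (∀ A ⊆ X, #A ≤ ν → ∃ h ∈ M.G, (∀ a ∈ A, h a = a) ∧ ∀ e ∈ E, h e = g e) →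
        ∀ A ⊆ X, #A < M.χ → ∃ h ∈ M.G, (∀ a ∈ A, h a = a) ∧ ∀ e ∈ E, h e = g e)
    (hFew : ∀ E : Set C, #E ≤ σ → ∀ z ⊆ X, #z ≤ ν → ∀ J : Type u, ν < #J →
      ∀ k : J → Equiv.Perm C, (∀ j, k j ∈ M.G) →
      ∃ j j', j ≠ j' ∧ ∃ h ∈ M.G, (∀ a ∈ z, h a = a) ∧ ∀ e ∈ E, h (k j e) = k j' e)
    {s₀ E₀ : Set C} (hs₀ : s₀ ⊆ X) (hs₀c : #s₀ ≤ σ) (hE₀ : #E₀ ≤ σ) :
    ∃ g ∈ M.G, (∀ a ∈ s₀, g a = a) ∧ ∃ B ⊆ X, #B < M.χ ∧ M.Isol B X (g '' E₀) := by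
  have hτ := Λ.ap
  have hE₀τ : #E₀ ≤ τ := hE₀.trans (hσν.trans hντ.le)
  -- the closed traces
  let Z : Set (Set C) := {z | ∃ H, Clo φ H ∧ #H ≤ τ ∧ X ∩ H = z}
  have hgen : ∀ z ∈ Z, #(gen φ z) ≤ τ ∧ X ∩ gen φ z = z := by
    rintro z ⟨H, h1, h2, h3⟩
    have h4 : z ⊆ H := by
      rw [← h3]
      exact inter_subset_right
    have h5 := gen_sub h1 h4
    refine ⟨(mk_le_mk_of_subset h5).trans h2, Subset.antisymm ?_ (subset_inter ?_ sub_gen)⟩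
    · calc X ∩ gen φ z ⊆ X ∩ H := inter_subset_inter_right X h5
        _ = z := h3
    · rw [← h3]
      exact inter_subset_left
  have hex : ∀ Y ⊆ X, #Y ≤ τ → ∃ z ∈ Z, Y ⊆ z := by
    intro Y hY hYc
    obtain ⟨H, h1, h2, h3⟩ := exists_clo hτ h.card Y hYc
    exact ⟨X ∩ H, ⟨H, h1, h3, rfl⟩, subset_inter hY h2⟩
  have hZX : ∀ z ∈ Z, z ⊆ X := by
    rintro z ⟨H, -, -, rfl⟩
    exact inter_subset_left
  have hZc : ∀ z ∈ Z, #z ≤ τ := by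
    rintro z ⟨H, -, h2, rfl⟩
    exact (mk_le_mk_of_subset inter_subset_right).trans h2
  have hkE : ∀ k : Equiv.Perm C, #(k '' E₀ : Set C) ≤ τ := fun k => mk_image_le.trans hE₀τ
  have hun : ∀ (ι : Type u) [LinearOrder ι] [WellFoundedLT ι] [Nonempty ι], #ι ≤ ν →
      ∀ z : ι → Set C, Monotone z → (∀ i, z i ∈ Z) →
        (∀ i, Clo φ (gen φ (z i))) ∧ (Monotone fun i => gen φ (z i)) ∧
          (X ∩ ⋃ i, gen φ (z i) = ⋃ i, z i) ∧ #(⋃ i, gen φ (z i) : Set C) ≤ τ := by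
    intro ι _ _ _ hι z hz hzZ
    refine ⟨fun i => clo_gen, fun i j hij => gen_mono (hz hij), ?_, ?_⟩
    · rw [inter_iUnion]
      exact iUnion_congr fun i => (hgen _ (hzZ i)).2
    · exact (mk_iUnion_le _).trans ((mul_le_mul' (hι.trans hντ.le)
        (ciSup_le' fun i => (hgen _ (hzZ i)).1)).trans (mul_eq_self hτ).le)
  suffices h' : ∃ g ∈ M.G, (∀ b ∈ s₀, g b = b) ∧ ∃ z ∈ Z, s₀ ⊆ z ∧ M.Isol z X (g '' E₀) by
    obtain ⟨g, hg, hgs, z, hz, -, hI⟩ := h'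
    exact ⟨g, hg, hgs, z, hZX z hz, (hZc z hz).trans_lt Λ.lt, hI⟩
  refine exists_isol_of_treeE (X := X) (s₀ := s₀) (E₀ := E₀)
    (Λ.emap hντ) hν (hs₀c.trans hσν) (hE₀.trans hσν) Z hZX ?_ (hex s₀ hs₀
    (hs₀c.trans (hσν.trans hντ.le))) ?_ ?_ ?_ ?_ ?_ ?_ (hFew E₀ hE₀)
  · intro z hz
    exact Λ.Γ.ofG (g := 1) M.G.one_mem (Λ.union_le (hZc z hz) hE₀τ)
  · intro z hz A hA hAc
    obtain ⟨z', h1, h2⟩ := hex (z ∪ A) (union_subset (hZX z hz) hA)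
      (Λ.union_le (hZc z hz) (hAc.trans hντ.le))
    exact ⟨z', h1, subset_union_left.trans h2, subset_union_right.trans h2⟩
  · intro ι _ _ _ hι z hz hzZ
    obtain ⟨h1, h2, h3, h4⟩ := hun ι hι z hz hzZ
    exact ⟨_, Clo.iUnion h2.directed_le h1, h4, h3⟩
  · intro ι _ _ _ hι z hz hzZ f hf
    obtain ⟨h1, h2, h3, h4⟩ := hun ι hι z hz hzZ
    have h5 := h.limE ι (hι.trans hντ.le) _ h2 h1 (fun i => (hgen _ (hzZ i)).1) f (fun i => by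
      rw [(hgen _ (hzZ i)).2]
      exact hf i)
    rwa [h3] at h5
  · intro z hz z' hz' hzz' k hk f hf
    obtain ⟨f', h1, h2⟩ := Λ.Γ.ext' hf (D' := z' ∪ k '' E₀) (Λ.union_le (hZc z' hz') (hkE k))
      (union_subset_union_left _ hzz')
    exact ⟨f', h2, h1⟩
  · intro z hz f hf
    obtain ⟨k, F, h1, h2, h3⟩ := Λ.Γ.pull hf hE₀τ
    obtain ⟨u, hu, hu1⟩ := Λ.Γ.small (Λ.Γ.mono h1 (D' := k '' E₀) subset_union_right)
      (mk_image_le.trans_lt (hE₀.trans_lt (hσν.trans_lt hντ)))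
    have hku : ∀ e ∈ E₀, u⁻¹ e = k e := fun e he => by
      rw [Equiv.Perm.inv_eq_iff_eq, hu1 _ (mem_image_of_mem k he), h3 e he]
    have hk : (u⁻¹ : Equiv.Perm C) '' E₀ = k '' E₀ := image_congr hku
    refine ⟨u⁻¹, M.G.inv_mem hu, F, h2, ?_, fun e he => ?_⟩
    · rw [hk]
      exact h1
    · rw [hku e he]
      exact h3 e he
  · intro g₀ hg₀ _ g hg hA A hA' hAc
    obtain ⟨h1, h2, h3, h4⟩ := hT (g₀ '' E₀) (mk_image_le.trans hE₀) g hg (fun A hA1 hA2 => by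
      obtain ⟨h, h1, h2, h3⟩ := hA A hA1 hA2
      refine ⟨h, h1, h2, ?_⟩
      rintro _ ⟨e, he, rfl⟩
      exact h3 e he) A hA' hAc
    exact ⟨h1, h2, h3, fun e he => h4 _ (mem_image_of_mem g₀ he)⟩

/-- The data of helper74 for one model `N` over `X`. -/
theorem exists_pack {Λ : Lv M τ} {X : Set C} {φ ψ : Finset C → Set C} (h : TrX Λ X φ)
    {R : ℕ → Set C} (hR : Monotone R) (hRT : ∀ n, R n ∈ M.T) (hN : (⋃ n, R n) ∈ M.S)
    (hXN : X ⊆ ⋃ n, R n) (hψ : TrN M τ X (⋃ n, R n) ψ)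
    (hRi : ∀ n, ∃ B ⊆ X, #B < M.χ ∧ M.Isol B X (R n))
    (hdens : ∀ s ⊆ X, #s ≤ τ → ∀ E : Set C, #E ≤ τ →
      ∃ g ∈ M.G, (∀ a ∈ s, g a = a) ∧ ∃ B ⊆ X, #B < M.χ ∧ M.Isol B X (g '' E)) :
    ∃ K : Pack M τ X (⋃ n, R n), Nonempty K.Filt := by
  have hτ := Λ.ap
  obtain ⟨χ, hχ, hχ'⟩ := Λ.filt R hR hRT hN
  let Φ : Finset C → Set C := fun s => (φ s ∪ ψ s) ∪ χ s
  have hΦ : ∀ s, #(Φ s) ≤ τ := fun s => Λ.union_le (Λ.union_le (h.card s) (hψ.card s)) (hχ s)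
  have hΦφ : ∀ {H}, Clo Φ H → Clo φ H := fun h => clo_left (clo_left h)
  have hΦψ : ∀ {H}, Clo Φ H → Clo ψ H := fun h => clo_right (clo_left h)
  have hΦχ : ∀ {H}, Clo Φ H → Clo χ H := fun h => clo_right h
  let Z : Set (Set C) := {H | Clo Φ H ∧ #H ≤ τ}
  have hZU : ∀ (ι : Type u) [LinearOrder ι] [WellFoundedLT ι] [Nonempty ι], #ι ≤ τ →
      ∀ z : ι → Set C, Monotone z → (∀ i, z i ∈ Z) → (⋃ i, z i) ∈ Z := by
    intro ι _ _ _ hι z hz hzZ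
    exact ⟨Clo.iUnion hz.directed_le fun i => (hzZ i).1, (mk_iUnion_le _).trans ((mul_le_mul' hι
      (ciSup_le' fun i => (hzZ i).2)).trans (mul_eq_self hτ).le)⟩
  let K : Pack M τ X (⋃ n, R n) :=
    { S := Λ.S
      Z := Z
      hτ := hτ
      hτM := Λ.lt
      mem := hN
      sub := hXN
      S_card := Λ.S_card
      Z_card := fun z hz => hz.2
      cl := fun D hD => by
        obtain ⟨H, h1, h2, h3⟩ := exists_clo hτ hΦ D hD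
        exact ⟨H, ⟨h1, h3⟩, h2⟩
      SU := Λ.SU
      ZU := hZU
      inN := fun z hz => (hχ' z (hΦχ hz.1) hz.2).1
      im := fun E hE f hf => Λ.im E hE f (Λ.tame E hE f hf)
      amal := fun E hE E' hE' hEE' f hf => by
        obtain ⟨f', h1, h2⟩ := Λ.Γ.ext' (Λ.tame E hE f hf) (Λ.S_card E' hE') hEE'
        exact ⟨f', h2, fun A hA hAc => Λ.Γ.restr h1 hA hAc⟩
      back := fun z hz F hF f hf hfF => by
        have h1 := h.tame z (hΦφ hz.1) hz.2 f hf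
        obtain ⟨k, f', h2, h3, h4⟩ := Λ.Γ.pull h1 (Λ.S_card F hF)
        have hinj := Λ.Γ.injOn h2
        have hsub : X ∩ z ⊆ k '' F := by
          intro x hx
          refine ⟨f x, hfF x hx, ?_⟩
          refine hinj (Or.inr (mem_image_of_mem k (hfF x hx))) (Or.inl hx) ?_
          rw [h4 _ (hfF x hx), h3 x hx]
        have h5 : Λ.Γ.E (k '' F) f' := Λ.Γ.mono h2 subset_union_right
        have himg : f' '' (k '' F) = F := by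
          rw [image_image]
          conv_rhs => rw [← image_id F]
          exact image_congr fun b hb => h4 b hb
        have hkF : k '' F ∈ Λ.S := by
          obtain ⟨g, h6, h7⟩ := Λ.Γ.inv h5
          rw [himg] at h6
          have h8 := Λ.im F hF g h6
          have h9 : g '' F = k '' F := by
            refine image_congr fun b hb => ?_
            have h10 := h7 (k b) (mem_image_of_mem k hb)
            rwa [h4 b hb] at h10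
          rwa [h9] at h8
        exact ⟨k '' F, hkF, hsub, f', h3, fun A hA hAc => Λ.Γ.restr h5 hA hAc, himg⟩
      lim := fun ι _ _ _ hι z hz hzZ f hf => h.lim ι hι z hz (fun i => hΦφ (hzZ i).1)
        (fun i => (hzZ i).2) f hf
      dens := fun z hz E hE hzE => hdens (X ∩ z) inter_subset_left
        ((mk_le_mk_of_subset inter_subset_right).trans hz.2) E (Λ.S_card E hE)
      shrink := fun z hz e he hec hB => hψ.shrink z (hΦψ hz.1) hz.2 e he hec hB }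
  refine ⟨K, ⟨?_⟩⟩
  exact
    { R := R
      T := Λ.T
      iso := hRi
      T_card := Λ.T_card
      filt := fun z hz => (hχ' z (hΦχ hz.1) hz.2).2
      glue := fun t ht htT htS f hf A hA hAc => Λ.Γ.restr (Λ.glue t ht htT htS f hf) hA hAc
      sat := Λ.sat }

/-- The shrinking of the isolating sets for all the unions of sequences of small models which are
isolated over `X`. -/
def TrB (M : PG C) (τ : Cardinal.{u}) (X : Set C) : Prop :=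
  ∀ R : ℕ → Set C, Monotone R → (∀ n, R n ∈ M.T) → (⋃ n, R n) ∈ M.S → X ⊆ ⋃ n, R n →
    (∀ n, ∃ B ⊆ X, #B < M.χ ∧ M.Isol B X (R n)) → ∃ ψ, TrN M τ X (⋃ n, R n) ψ

/-- **Atomic models** over a set `X` whose closed traces, of cofinally many sizes, behave well. -/
theorem exists_top' {X : Set C} (hχ : ℵ₀ < M.χ) (hX : #X = M.χ)
    (hTi : ∀ g ∈ M.G, ∀ R ∈ M.T, (g : C → C) '' R ∈ M.T)
    (hL : ∀ A : Set C, #A < M.χ → ∃ R ∈ M.T, A ⊆ R)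
    (hU : ∀ R : ℕ → Set C, Monotone R → (∀ n, R n ∈ M.T) → #(⋃ n, R n : Set C) = M.χ →
      (⋃ n, R n) ∈ M.S)
    (hFew : ∀ σ < M.χ, ∃ ν < M.χ, σ ≤ ν ∧ ∀ E : Set C, #E ≤ σ → ∀ z : Set C, #z ≤ ν →
      ∀ J : Type u, ν < #J → ∀ k : J → Equiv.Perm C, (∀ j, k j ∈ M.G) →
      ∃ j j', j ≠ j' ∧ ∃ h ∈ M.G, (∀ a ∈ z, h a = a) ∧ ∀ e ∈ E, h (k j e) = k j' e)
    (hTm : M.Tm X)
    (hLv : ∀ σ < M.χ, ∃ τ, σ < τ ∧ ∃ Λ : Lv M τ, (∃ φ, TrX Λ X φ) ∧ TrB M τ X) :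
    ∃ N, M.Atomic N X := by
  have hd : ∀ σ < M.χ, ∀ s ⊆ X, #s ≤ σ → ∀ E : Set C, #E ≤ σ →
      ∃ g ∈ M.G, (∀ a ∈ s, g a = a) ∧ ∃ B ⊆ X, #B < M.χ ∧ M.Isol B X (g '' E) := by
    intro σ hσ s hs hsc E hE
    obtain ⟨H, hH, hTH⟩ := hTm σ hσ
    obtain ⟨ν, hν, h1, h2⟩ := hFew (max (max ℵ₀ σ) H) (max_lt (max_lt hχ hσ) hH)
    obtain ⟨τ, hντ, Λ, ⟨φ, hφ⟩, -⟩ := hLv ν hν
    have hσν : σ ≤ ν := ((le_max_right _ _).trans (le_max_left _ _)).trans h1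
    refine hφ.dens (σ := σ) (((le_max_left _ _).trans (le_max_left _ _)).trans h1) hσν hντ
      (fun E hE g hg h => hTH E hE g hg fun A hA hAH => h A hA (hAH.trans
        ((le_max_right _ _).trans h1))) (fun E hE z _ hz J hJ k hk => h2 E
          (hE.trans ((le_max_right _ _).trans (le_max_left _ _))) z hz J hJ k hk) hs hsc hE
  obtain ⟨R, h1, h2, h3, h4, h5⟩ := exists_bdd_of_dense hX hTi hL hU fun s hs hsc E hEc => by
    have h6 : max #s #E < M.χ := max_lt hsc hEc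
    exact hd _ h6 s hs (le_max_left _ _) E (le_max_right _ _)
  refine ⟨⋃ n, R n, atomic_of_packs hχ h4 h3 fun ν _ hν => ?_⟩
  obtain ⟨τ, hντ, Λ, ⟨φ, hφ⟩, hN⟩ := hLv ν hν
  obtain ⟨ψ, hψ⟩ := hN R h1 h2 h4 h3 h5
  obtain ⟨K, hK⟩ := exists_pack hφ h1 h2 h4 h3 hψ h5 fun s hs hsc E hE => hd τ Λ.lt s hs hsc E hE
  exact ⟨τ, hντ, K, hK⟩

/-- The same with the shrinking of the isolating sets for all models over `X`. -/
theorem exists_top {X : Set C} (hχ : ℵ₀ < M.χ) (hX : #X = M.χ)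
    (hTi : ∀ g ∈ M.G, ∀ R ∈ M.T, (g : C → C) '' R ∈ M.T)
    (hL : ∀ A : Set C, #A < M.χ → ∃ R ∈ M.T, A ⊆ R)
    (hU : ∀ R : ℕ → Set C, Monotone R → (∀ n, R n ∈ M.T) → #(⋃ n, R n : Set C) = M.χ →
      (⋃ n, R n) ∈ M.S)
    (hFew : ∀ σ < M.χ, ∃ ν < M.χ, σ ≤ ν ∧ ∀ E : Set C, #E ≤ σ → ∀ z : Set C, #z ≤ ν →
      ∀ J : Type u, ν < #J → ∀ k : J → Equiv.Perm C, (∀ j, k j ∈ M.G) →
      ∃ j j', j ≠ j' ∧ ∃ h ∈ M.G, (∀ a ∈ z, h a = a) ∧ ∀ e ∈ E, h (k j e) = k j' e)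
    (hTm : M.Tm X)
    (hLv : ∀ σ < M.χ, ∃ τ, σ < τ ∧ ∃ Λ : Lv M τ, (∃ φ, TrX Λ X φ) ∧
      ∀ N ∈ M.S, X ⊆ N → ∃ ψ, TrN M τ X N ψ) :
    ∃ N, M.Atomic N X :=
  exists_top' hχ hX hTi hL hU hFew hTm fun σ hσ => by
    obtain ⟨τ, h1, Λ, h2, h3⟩ := hLv σ hσ
    exact ⟨τ, h1, Λ, h2, fun R _ _ h4 h5 _ => h3 _ h4 h5⟩

end Vale.Agent.P307.R2.H301
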