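import Vale.Agent.P307.R2.H301.Din.Asm
import Vale.Agent.P307.R2.H718.Ladder
import Vale.Agent.P307.R2.H287.PgTopR
import Vale.Agent.P307.R2.H287.TinyR

/-!
Atomic models over the boundary of the extension of a system by one direction, from the behaviour of
the closed traces at cofinally many smaller base points.
-/

set_option linter.unusedSectionVars false

universe u

open FirstOrder Cardinal Set

namespace Vale.Agent.P307.R2.H301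

open Vale.Agent.P307 Vale.Agent.P307.H304 Vale.Agent.P307.R2.H287 Vale.Agent.P307.R2.H1
  Vale.Agent.P307.R2.H971 Vale.Agent.P307.R2.H804 Vale.Agent.P307.R2.H533
  Vale.Agent.P307.R2.H806 Vale.Agent.P307.R2.H718 Language.Structure Language.Substructure
open Vale.Agent.P307.R2.H541 Vale.Agent.P307.R2.H541.PG
open Vale.Agent.P307.R2.H68 (Clo exists_clo)

open scoped Classical

section abs

variable {C : Type u}

/-- Joint reflection of the faces of a boundary into their closed traces, over the closed traces of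
the boundary. -/
def JRb (M : PG C) (τ : Cardinal.{u}) {ι : Type u} (A : Finset ι → Set C) (S : Finset ι)
    (c : ι) : Prop :=
  ∃ φ : Finset C → Set C, (∀ s, #(φ s) ≤ τ) ∧ ∀ H, Clo φ H → #H ≤ τ →
    M.JR τ A (insert c S).ssubsets H (ibd A (insert c S) ∩ H)

/-- Continuity along the sets which are closed under `ψ`. -/
def LimP (M : PG C) (τ : Cardinal.{u}) (X : Set C) (ψ : Finset C → Set C) : Prop :=
  ∀ (I : Type u) [LinearOrder I] [WellFoundedLT I] [Nonempty I], #I ≤ τ →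
    ∀ z : I → Set C, Monotone z → (∀ i, Clo ψ (z i)) → (∀ i, #(z i) ≤ τ) → ∀ f : C → C,
      (∀ i, M.LET τ f (X ∩ z i)) → M.LET τ f (X ∩ ⋃ i, z i)

/-- The limit lemma for the union of two models. -/
def LLp (M : PG C) (τ : Cardinal.{u}) (Q R : Set C) : Prop :=
  ∃ φ : Finset C → Set C, (∀ s, #(φ s) ≤ τ) ∧ LimP M τ (Q ∪ R) φ

end abs

variable {L : Language.{u, u}} {K : AEC L} {ℓ θ τ : Cardinal.{u}}
  {κf α : Cardinal.{u} → Cardinal.{u}} {C : Type u} [L.Structure C]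

section

variable (h₀ : BasePt K ℓ κf α θ) (hK : K.IsLS ℓ)
  (hunb : ∀ ν, ν < κf ν ∧ K.CategoricalIn (κf ν)) (hst : Stab K ℓ α (H287.thr κf))
  (hCm : K.mem C) (hs : Sat K θ C) (hCc : #C = Order.succ θ)

variable {ι : Type u} {A : Finset ι → Set C} {S : Finset ι} {c : ι}

/-- The common closure for the good closed sets. -/
theorem exists_clo_goodR (hE : Ext1 (pg h₀ hK hunb hst hCm hs hCc) A S c) (hS : S.Nonempty)
    (hτ : BasePt K ℓ κf α τ) (hτθ : τ < θ)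
    (hG : ∀ u, u ⊂ S → u.Nonempty →
      TrR (pg h₀ hK hunb hst hCm hs hCc) τ (ibd A (insert c u)))
    (hJ : JRb (pg h₀ hK hunb hst hCm hs hCc) τ A S c) :
    ∃ φ : Finset C → Set C, (∀ s, #(φ s) ≤ τ) ∧ ∀ ψ : Finset C → Set C, (∀ s, φ s ⊆ ψ s) →
      Good1 (pg h₀ hK hunb hst hCm hs hCc) τ A S c {H | Clo ψ H ∧ #H ≤ τ} ∧
      StrZ K τ A S c {H | Clo ψ H ∧ #H ≤ τ} := by
  obtain ⟨φ₁, h1, h2⟩ := exists_clo_str h₀ hK hunb hst hCm hs hCc hE hτ hτθ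
  obtain ⟨φ₃, h5, h6⟩ := hJ
  have hτ0 := aleph0_le_pt hτ hK
  refine ⟨fun s => φ₁ s ∪ φ₃ s, fun s => (mk_union_le _ _).trans (add_le_of_le hτ0 (h1 s) (h5 s)),
    fun ψ hψ => ⟨⟨hE, hS, ?_, ?_⟩, ?_⟩⟩
  · rintro H ⟨hH, hHc⟩
    exact h6 H (clo_right (hH.mono hψ)) hHc
  · rintro H ⟨hH, hHc⟩ u hu hu0 E hE' hEc
    exact (hG u hu hu0).tiny (hE.atomic u hu hu0) hτ0 hτθ.le (hE'.trans inter_subset_left) hEc
  · rintro H ⟨hH, hHc⟩ t ht
    exact h2 H (clo_left (hH.mono hψ)) hHc t (Finset.mem_ssubsets.2 ht)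

/-- **The engine.** -/
theorem exists_atomic_of (hE : Ext1 (pg h₀ hK hunb hst hCm hs hCc) A S c) (hS : S.Nonempty)
    (hTm : (pg h₀ hK hunb hst hCm hs hCc).Tm (ibd A (insert c S)))
    (h : ∀ σ < θ, ∃ τ, σ < τ ∧ ∃ (hτ : BasePt K ℓ κf α τ) (_ : τ < θ),
      TmAt hK hunb hst hτ C S c ∧ JRb (pg h₀ hK hunb hst hCm hs hCc) τ A S c ∧
      (∀ u, u ⊆ S → u.Nonempty →
        TrR (pg h₀ hK hunb hst hCm hs hCc) τ (ibd A (insert c u))) ∧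
      ∃ χ : Finset C → Set C, (∀ s, #(χ s) ≤ τ) ∧ ∀ ψ : Finset C → Set C, (∀ s, χ s ⊆ ψ s) →
        Good1 (pg h₀ hK hunb hst hCm hs hCc) τ A S c {H | Clo ψ H ∧ #H ≤ τ} →
        StrZ K τ A S c {H | Clo ψ H ∧ #H ≤ τ} →
          LimP (pg h₀ hK hunb hst hCm hs hCc) τ (ibd A (insert c S)) ψ) :
    ∃ N, (pg h₀ hK hunb hst hCm hs hCc).Atomic N (ibd A (insert c S)) := by
  refine pg_exists_topR h₀ hK hunb hst hCm hs hCc (mk_ibd h₀ hK hunb hst hCm hs hCc hE) hTm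
    fun σ hσ => ?_
  obtain ⟨τ, hστ, hτ, hτθ, hT, hJ, hG, χ, hχ, hχ'⟩ := h σ hσ
  refine ⟨τ, hστ, hτ, hτθ, ?_, hG S (Finset.Subset.refl S) hS⟩
  obtain ⟨φ, h2, h3⟩ := exists_clo_goodR h₀ hK hunb hst hCm hs hCc hE hS hτ hτθ
    (fun u hu h => hG u hu.1 h) hJ
  have hτ0 := aleph0_le_pt hτ hK
  obtain ⟨h4, h5⟩ := h3 (fun s => φ s ∪ χ s) fun s => subset_union_left
  have hφ : ∀ s, #(φ s ∪ χ s : Set C) ≤ τ := fun s => (mk_union_le _ _).trans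
    (add_le_of_le hτ0 (h2 s) (hχ s))
  exact ⟨fun s => φ s ∪ χ s, trX_of h₀ hK hunb hst hCm hs hCc hτ hτθ
    (pgLv h₀ hK hunb hst hCm hs hCc hτ hτθ) rfl hφ h4 h5 hT
    (hχ' _ (fun s => subset_union_right) h4 h5)⟩

/-- Continuity for points. -/
theorem lim_point (hτ : BasePt K ℓ κf α τ) (hτθ : τ < θ) (hC : ChnAt hK hunb hst hτ C) {p : Set C}
    (hp : p.Finite) (hat : (pg h₀ hK hunb hst hCm hs hCc).Atomic (A {c}) (p ∪ A ∅))
    (h1 : ∀ E ⊆ A {c}, #E < τ →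
      ∃ B ⊆ p ∪ A ∅, #B < τ ∧ (pg h₀ hK hunb hst hCm hs hCc).Isol B (p ∪ A ∅) E) :
    ∃ χ : Finset C → Set C, (∀ s, #(χ s) ≤ τ) ∧ ∀ ψ : Finset C → Set C, (∀ s, χ s ⊆ ψ s) →
      Good1 (pg h₀ hK hunb hst hCm hs hCc) τ A S c {H | Clo ψ H ∧ #H ≤ τ} →
      StrZ K τ A S c {H | Clo ψ H ∧ #H ≤ τ} →
        LimP (pg h₀ hK hunb hst hCm hs hCc) τ (ibd A (insert c S)) ψ := by
  have hτ0 := aleph0_le_pt hτ hK
  refine ⟨fun _ => p, fun _ => (lt_aleph0_iff_set_finite.2 hp).le.trans hτ0,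
    fun ψ hψ h4 h5 => ?_⟩
  have hpZ : ∀ z ∈ ({H | Clo ψ H ∧ #H ≤ τ} : Set (Set C)), p ⊆ z := fun z hz =>
    (hψ ∅).trans (hz.1 ∅ (by simp))
  intro I _ _ _ hI z hz hzc hzτ f hf
  exact pg_lim_point h₀ hK hunb hst hCm hs hCc hτ hτθ h4 (fun z hz => hz.2) h5 hC hp hpZ hat
    (fun z _ E hE' hEc => h1 E (hE'.trans inter_subset_left) hEc) hz
    (fun i => ⟨hzc i, hzτ i⟩) (Zc.iUnion hτ0 hI z hz fun i => ⟨hzc i, hzτ i⟩) hf

/-- Continuity for pairs. -/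
theorem lim_pair (hE : Ext1 (pg h₀ hK hunb hst hCm hs hCc) A S c) (hS : S.Nonempty)
    (hτ : BasePt K ℓ κf α τ) (hτθ : τ < θ) (hC : ChnAt hK hunb hst hτ C)
    (hL : LLp (pg h₀ hK hunb hst hCm hs hCc) τ (A {c}) (A S)) :
    ∃ χ : Finset C → Set C, (∀ s, #(χ s) ≤ τ) ∧ ∀ ψ : Finset C → Set C, (∀ s, χ s ⊆ ψ s) →
      Good1 (pg h₀ hK hunb hst hCm hs hCc) τ A S c {H | Clo ψ H ∧ #H ≤ τ} →
      StrZ K τ A S c {H | Clo ψ H ∧ #H ≤ τ} →
        LimP (pg h₀ hK hunb hst hCm hs hCc) τ (ibd A (insert c S)) ψ := by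
  have hτ0 := aleph0_le_pt hτ hK
  obtain ⟨χ, hχ, hχ'⟩ := hL
  refine ⟨χ, hχ, fun ψ hψ h4 h5 => ?_⟩
  intro I _ _ _ hI z hz hzc hzτ f hf
  have hc1 := singleton_ssubset_insert hS hE.notMem
  refine pg_lim_pair h₀ hK hunb hst hCm hs hCc hτ hτθ h4 (fun z hz => hz.2) h5 hC hz
    (fun i => ⟨hzc i, hzτ i⟩) (Zc.iUnion hτ0 hI z hz fun i => ⟨hzc i, hzτ i⟩) hf ?_
  refine hχ' I hI z hz (fun i => (hzc i).mono hψ) hzτ f fun i B hB hBc => hf i B ?_ hBc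
  rintro x hx
  rcases hB hx with ⟨h6 | h6, h7⟩
  · exact ⟨⟨_, hc1, h6⟩, h7⟩
  · exact ⟨⟨S, Finset.ssubset_insert hE.notMem, h6⟩, h7⟩

end

end Vale.Agent.P307.R2.H301
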