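import Vale.Agent.P307.R2.H301.Din.Pair
import Vale.Agent.P307.R2.H844.Sha
import Vale.Agent.P307.R2.H287.TopR
import Vale.Agent.P307.R2.H74.LLd
import Vale.Agent.P307.R2.H514.TGap
import Vale.Agent.P307.R2.H732.TmL
import Vale.Agent.P307.R2.H301.Din.Eng

/-!
The properties of the geometry which are used in the induction on the dimension, and the boundaries
of dimension at most two.
-/

set_option linter.unusedSectionVars false

universe u

open Cardinal Set

namespace Vale.Agent.P307.R2.H301

open Vale.Agent.P307.R2.H541 Vale.Agent.P307.R2.H541.PG Vale.Agent.P307.R2.H533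
  Vale.Agent.P307.R2.H650 Vale.Agent.P307.R2.H578 Vale.Agent.P307.R2.H844
  Vale.Agent.P307.R2.H74 Vale.Agent.P307.R2.H514
open Vale.Agent.P307.R2.H68 (Clo exists_clo)

open scoped Classical

variable {C : Type u}

/-- Tameness of the types over all the boundaries of dimension at most `m`, with uniform bounds. -/
def TXK (ℓ : Cardinal.{u}) (m : ℕ) (M : PG C) : Prop :=
  ∀ (ι : Type u) (s : Finset ι), s.card ≤ m → ∀ F ⊆ s.ssubsets, ∀ A : Finset ι → Set C,
    IFam M A F → IRef M A F → ∀ σ < M.χ, ∀ ρ < M.χ, M.TmL σ (tH (max ℓ σ)) ρ (iun A F)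

/-- Atomic tops over the extensions of the systems of dimension at most `k` by one direction. -/
def MdKG (k : ℕ) (M : PG C) : Prop := ∀ (ι : Type u) (j : ℕ), j ≤ k → Md M ι j

/-- Joint reflection of the faces of all the boundaries of dimension at most `n` into their closed
traces, over the closed traces of the boundary. -/
def WJK (n : ℕ) (M : PG C) (τ : Cardinal.{u}) : Prop :=
  ∀ (ι : Type u) (A : Finset ι → Set C) (s : Finset ι), s.card ≤ n → IFam M A s.ssubsets →
    IRef M A s.ssubsets → JRp M τ A s.ssubsets (ibd A s)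

/-- Shrinking of the isolating sets over all the boundaries of dimension at most `n`, inside small
isolated models. -/
def WRK (n : ℕ) (M : PG C) (τ : Cardinal.{u}) : Prop :=
  ∀ (ι : Type u) (A : Finset ι → Set C) (s : Finset ι), s.card ≤ n → IFam M A s.ssubsets →
    IRef M A s.ssubsets → TrR M τ (ibd A s)

/-- Shrinking of the isolating sets for the atomic tops over all the boundaries of dimension at
most `n`. -/
def ShK (n : ℕ) (M : PG C) (τ : Cardinal.{u}) : Prop := ∀ (ι : Type u) (j : ℕ), j ≤ n → SHa M τ ι j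

/-- Joint reflection for pairs of models. -/
def JR2K (M : PG C) (τ : Cardinal.{u}) : Prop :=
  ∀ (ι : Type u) (A : Finset ι → Set C) (S : Finset ι) (c : ι), S.card = 1 → Ext1 M A S c →
    JRb M τ A S c

/-- A statement on the union of the models of an independent pair. -/
def PairK (Θ : Set C → Set C → Prop) (M : PG C) (Ψ : Set C → Prop) : Prop :=
  ∀ P ∈ M.S, ∀ A ∈ M.S, ∀ B ∈ M.S, P ⊆ A → P ⊆ B → M.Ind P A B → Θ P A → Ψ (A ∪ B)

/-- Shrinking, for pairs one of which is generated by finitely many points. -/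
def TrPK (M : PG C) (τ : Cardinal.{u}) : Prop :=
  PairK (fun P A => ∃ p : Set C, p.Finite ∧ M.Atomic A (p ∪ P)) M (TrR M τ)

/-- Shrinking, for pairs one of which is a prime chain. -/
def TrJK (M : PG C) (τ : Cardinal.{u}) : Prop := PairK (PJ M) M (TrR M τ)

/-- Shrinking, for all the pairs. -/
def Tr2K (M : PG C) (τ : Cardinal.{u}) : Prop := PairK (fun _ _ => True) M (TrR M τ)

/-- Shrinking for the atomic tops, for pairs one of which is a prime chain. -/
def ShJK (M : PG C) (τ : Cardinal.{u}) : Prop := PairK (PJ M) M (SHA M τ)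

variable {M : PG C} {τ : Cardinal.{u}} {ι : Type u} {A : Finset ι → Set C} {s S : Finset ι} {c : ι}

theorem card_ibd' (hE : Ext1 M A S c) : #(ibd A (insert c S)) ≤ M.χ := by
  rw [← iun_ssubsets]
  exact card_iun (M := M) fun v hv => (M.S_card (hE.fam.mem v hv)).le

/-- Extensions of systems by one direction are boundaries. -/
theorem WJK.jrb {n : ℕ} (h : WJK n M τ) (hM : M.Calc) (hE : Ext1 M A S c) (hS : S.card + 1 ≤ n) :
    JRb M τ A S c :=
  h ι A (insert c S) (by rwa [Finset.card_insert_of_notMem hE.notMem]) hE.fam (hE.ref hM)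

theorem WRK.trR {n : ℕ} (h : WRK n M τ) (hM : M.Calc) (hE : Ext1 M A S c) (hS : S.card + 1 ≤ n) :
    TrR M τ (ibd A (insert c S)) :=
  h ι A (insert c S) (by rwa [Finset.card_insert_of_notMem hE.notMem]) hE.fam (hE.ref hM)

/-- A boundary of dimension two is an independent pair. -/
theorem ext1_of_card_two (hs : s.card = 2) (hA : IFam M A s.ssubsets) (hR : IRef M A s.ssubsets) :
    ∃ (S : Finset ι) (c : ι), S.card = 1 ∧ insert c S = s ∧ Ext1 M A S c := by
  obtain ⟨a, c, hac, rfl⟩ := Finset.card_eq_two.1 hs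
  have hca : ({a, c} : Finset ι) = insert c {a} := Finset.pair_comm a c
  have h0 : (∅ : Finset ι) ∈ ({a, c} : Finset ι).ssubsets := hA.down.1
  have ha : ({a} : Finset ι) ∈ ({a, c} : Finset ι).ssubsets := by
    rw [Finset.mem_ssubsets, hca]
    exact Finset.ssubset_insert (fun h => hac (Finset.mem_singleton.1 h).symm)
  have hc : ({c} : Finset ι) ∈ ({a, c} : Finset ι).ssubsets := by
    rw [Finset.mem_ssubsets]
    exact Finset.ssubset_insert (fun h => hac (Finset.mem_singleton.1 h))
  have hpow : ({a} : Finset ι).powerset ⊆ ({a, c} : Finset ι).ssubsets := by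
    intro t ht
    rw [Finset.mem_powerset] at ht
    exact hA.down.2 {a} ha t ht
  refine ⟨{a}, c, Finset.card_singleton a, hca.symm, ⟨⟨hA.sub (down_powerset _) hpow,
    hR.mono hpow⟩, fun h => hac (Finset.mem_singleton.1 h).symm, hA.mem _ hc,
    hA.mono _ hc _ (Finset.empty_subset _), ?_, ?_⟩⟩
  · have h1 := hR.ind hA.down hA hc ha
    have h2 : ({c} : Finset ι) ∩ {a} = ∅ :=
      Finset.singleton_inter_of_notMem (fun h => hac (Finset.mem_singleton.1 h).symm)
    rwa [h2] at h1
  · intro u hu hu0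
    rw [Finset.ssubset_singleton_iff.1 hu] at hu0
    exact absurd hu0 Finset.not_nonempty_empty

/-- Types over a model are isolated only inside it. -/
theorem isol_sub {X R B : Set C} (hX : X ∈ M.S) (hB : B ⊆ X) (hBc : #B < M.χ) (hR : #R < M.χ)
    (h : M.Isol B X R) : R ⊆ X := by
  intro e he
  obtain ⟨g, hg, h2, h3⟩ := M.sat hX hB hBc hR
  obtain ⟨k, hk, h4, h5⟩ := h g hg (fun b hb => h2 b hb) {g e}
    (singleton_subset_iff.2 (h3 e he)) (small_finite (finite_singleton (g e)))
  have h6 : k (g e) = g e := h4 (g e) rfl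
  have h7 : k e = g e := h5 e he
  rw [← h6] at h7
  rw [k.injective h7]
  exact h3 e he

/-- Shrinking over a model. -/
theorem trR_mem {X : Set C} (hX : X ∈ M.S) : TrR M τ X := by
  refine ⟨fun R hR h => ?_⟩
  obtain ⟨B, hB, hBc, hBi⟩ := h
  have hRX := isol_sub hX hB hBc (M.T_card hR) hBi
  exact ⟨fun _ => ∅, fun _ => by simp, fun H _ _ e he hec _ =>
    ⟨e, fun x hx => ⟨hRX (he hx).1, (he hx).2⟩, hec, Isol.self Subset.rfl⟩⟩

/-- A boundary of dimension one. -/
theorem ibd_card_one (hs : s.card = 1) : ibd A s = A ∅ := by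
  obtain ⟨a, rfl⟩ := Finset.card_eq_one.1 hs
  exact ibd_singleton A a

/-- Shrinking in dimension at most two, from the pairs. -/
theorem Tr2K.wrk (h : Tr2K M τ) : WRK 2 M τ := by
  intro ι A s hs hA hR
  have hs0 : s.card ≠ 0 := by
    intro h0
    rw [Finset.card_eq_zero] at h0
    subst h0
    exact (Finset.mem_ssubsets.1 hA.down.1).ne rfl
  rcases Nat.lt_or_ge s.card 2 with h1 | h1
  · rw [ibd_card_one (by omega)]
    exact trR_mem (hA.mem _ hA.down.1)
  · obtain ⟨S, c, hS, rfl, hE⟩ := ext1_of_card_two (le_antisymm hs h1) hA hR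
    rw [ibd_one hE hS]
    exact h _ (hE.sys.mem (Finset.empty_subset _)) _ hE.memc _ (hE.sys.mem (Finset.Subset.refl S))
      hE.base (hE.sys.mono (Finset.Subset.refl S) (Finset.empty_subset _)) hE.ind trivial

/-- Joint reflection in dimension at most two, from the pairs. -/
theorem JR2K.wjk {S' : Set (Set C)} (hT : TwoLv M τ S') (h : JR2K M τ) : WJK 2 M τ := by
  intro ι A s hs hA hR
  have hs0 : s.card ≠ 0 := by
    intro h0
    rw [Finset.card_eq_zero] at h0
    subst h0
    exact (Finset.mem_ssubsets.1 hA.down.1).ne rfl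
  rcases Nat.lt_or_ge s.card 2 with h1 | h1
  · obtain ⟨a, rfl⟩ := Finset.card_eq_one.1 (by omega : s.card = 1)
    obtain ⟨φ, h2, h3⟩ := hT.ec _ (hA.mem _ hA.down.1)
    refine ⟨φ, h2, fun H hH hHc E hE hEc q hq hqc => ?_⟩
    have hv0 : ∀ v ∈ ({a} : Finset ι).ssubsets, v = ∅ := fun v hv =>
      Finset.ssubset_singleton_iff.1 (Finset.mem_ssubsets.1 hv)
    obtain ⟨g, hg, h4, h5⟩ := (h3 H hH hHc).2 E (fun e he => by
      obtain ⟨v, hv, hev⟩ := hE he
      rwa [hv0 v hv] at hev) hEc q (hq.trans inter_subset_right) hqc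
    exact ⟨g, hg, h4, fun v hv e he _ => by
      rw [hv0 v hv]
      exact h5 e he⟩
  · obtain ⟨S, c, hS, rfl, hE⟩ := ext1_of_card_two (le_antisymm hs h1) hA hR
    exact h ι A S c hS hE

end Vale.Agent.P307.R2.H301
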