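import Vale.Agent.P307.R2.H533.Pt
import Vale.Agent.P307.R2.H27.FullPair
import Vale.Agent.P307.R2.H74.LLc

/-!
Pairs of models as one-dimensional systems with one more direction.
-/

set_option linter.unusedSectionVars false

universe u

open Cardinal Set

namespace Vale.Agent.P307.R2.H301

open Vale.Agent.P307.R2.H541 Vale.Agent.P307.R2.H541.PG Vale.Agent.P307.R2.H533
  Vale.Agent.P307.R2.H650

open scoped Classical

variable {C : Type u} {M : PG C}

/-- The boundary in dimension two. -/
theorem ibd_one {ι : Type u} {A : Finset ι → Set C} {S : Finset ι} {c : ι}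
    (hE : Ext1 M A S c) (hS : S.card = 1) : ibd A (insert c S) = A {c} ∪ A S := by
  have hS0 : S.Nonempty := Finset.card_pos.1 (by omega)
  ext x
  constructor
  · rintro ⟨t, ht, hx⟩
    rcases face_cases hE.notMem ht with h1 | ⟨u, hu, rfl⟩
    · exact Or.inr (hE.sys.mono (Finset.Subset.refl S) h1 hx)
    · have h2 := Finset.card_lt_card hu
      have h3 : u = ∅ := Finset.card_eq_zero.1 (by omega)
      subst h3
      exact Or.inl hx
  · rintro (hx | hx)
    · refine ⟨{c}, ?_, hx⟩
      refine Finset.ssubset_iff_subset_ne.2 ⟨Finset.singleton_subset_iff.2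
        (Finset.mem_insert_self c S), fun h => ?_⟩
      obtain ⟨a, ha⟩ := hS0
      have h1 : a ∈ ({c} : Finset ι) := h ▸ Finset.mem_insert_of_mem ha
      rw [Finset.mem_singleton.1 h1] at ha
      exact hE.notMem ha
    · exact ⟨S, Finset.ssubset_insert hE.notMem, hx⟩

/-- A pair of models is a one-dimensional system with one more direction. -/
theorem exists_ext_pair {P A B : Set C} (hP : P ∈ M.S) (hA : A ∈ M.S) (hB : B ∈ M.S)
    (hPA : P ⊆ A) (hPB : P ⊆ B) (hI : M.Ind P A B) :
    ∃ (ι : Type u) (A' : Finset ι → Set C) (S : Finset ι) (c : ι), S.card = 1 ∧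
      Ext1 M A' S c ∧ A' ∅ = P ∧ A' {c} = A ∧ A' S = B := by
  obtain ⟨ι, a, c, hac⟩ : ∃ (ι : Type u) (a c : ι), a ≠ c :=
    ⟨ULift.{u} Bool, ⟨true⟩, ⟨false⟩, fun h => Bool.noConfusion (congrArg ULift.down h)⟩
  let A' : Finset ι → Set C := fun t => if t = ∅ then P else if t = {c} then A else B
  have h0 : A' ∅ = P := if_pos rfl
  have hc0 : ({c} : Finset ι) ≠ ∅ := Finset.singleton_ne_empty c
  have ha0 : ({a} : Finset ι) ≠ ∅ := Finset.singleton_ne_empty a
  have hca : ({a} : Finset ι) ≠ {c} := fun h => hac (Finset.singleton_injective h)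
  have hc : A' {c} = A := (if_neg hc0).trans (if_pos rfl)
  have ha : A' {a} = B := (if_neg ha0).trans (if_neg hca)
  have hpow : ∀ t, t ∈ ({a} : Finset ι).powerset ↔ t = ∅ ∨ t = {a} := by
    intro t
    rw [Finset.mem_powerset, Finset.subset_singleton_iff]
  have hmono : ∀ t ∈ ({a} : Finset ι).powerset, ∀ r ⊆ t, A' r ⊆ A' t := by
    intro t ht r hr
    rcases (hpow t).1 ht with rfl | rfl
    · rw [Finset.subset_empty.1 hr]
    · rcases Finset.subset_singleton_iff.1 hr with rfl | rfl
      · rw [h0, ha]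
        exact hPB
      · exact Subset.rfl
  have hfam : IFam M A' ({a} : Finset ι).powerset := by
    refine ⟨⟨Finset.empty_mem_powerset _, fun v hv r hr => Finset.mem_powerset.2
      (hr.trans (Finset.mem_powerset.1 hv))⟩, fun t ht => ?_, hmono⟩
    rcases (hpow t).1 ht with rfl | rfl
    · rw [h0]
      exact hP
    · rw [ha]
      exact hB
  refine ⟨ι, A', {a}, c, Finset.card_singleton a, ⟨⟨hfam, ?_⟩, ?_, ?_, ?_, ?_, ?_⟩,
    h0, hc, ha⟩
  · intro x E hE hEc
    have hEB : E ⊆ B := by
      intro e he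
      obtain ⟨v, hv, hev⟩ := hE he
      have h1 := hmono {a} (Finset.mem_powerset_self _) v (Finset.mem_powerset.1 hv) hev
      rwa [ha] at h1
    by_cases hx : x = a
    · obtain ⟨g, hg, h1, h2⟩ := tv_of_mem hP (Y := B) (E ∩ P) inter_subset_right
        ((mk_le_mk_of_subset inter_subset_left).trans_lt hEc) E hEB hEc
      refine ⟨g, hg, fun v hv e he hev => ?_⟩
      rcases (hpow v).1 hv with rfl | rfl
      · rw [h0] at hev
        rw [Finset.erase_empty, h0, h1 e ⟨he, hev⟩]
        exact ⟨hev, fun _ => rfl⟩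
      · have h3 : ({a} : Finset ι).erase x = ∅ := by
          rw [hx, Finset.erase_singleton]
        rw [h3, h0]
        exact ⟨h2 e he, fun h => absurd (Finset.mem_singleton.2 hx) h⟩
    · refine ⟨1, M.G.one_mem, fun v hv e he hev => ⟨?_, fun _ => rfl⟩⟩
      rw [Finset.erase_eq_of_notMem]
      · exact hev
      · intro h
        exact hx (Finset.mem_singleton.1 (Finset.mem_powerset.1 hv h))
  · exact fun h => hac (Finset.mem_singleton.1 h).symm
  · rw [hc]
    exact hA
  · rw [h0, hc]
    exact hPA
  · rw [h0, hc, ha]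
    exact hI
  · intro u hu hu0
    rw [Finset.ssubset_singleton_iff.1 hu] at hu0
    exact absurd hu0 Finset.not_nonempty_empty

/-- Points of a model whose type over the model is isolated. -/
theorem tot_restrict' {P : Set C} (hC : Chn M) {ι : Type u} [LinearOrder ι] [WellFoundedLT ι]
    {c : ι → C} {Q : ι → Set C} (h : PCh M P c Q) (hc : #(tot P Q) ≤ M.χ) :
    ∃ J : Set ι, #J ≤ M.χ ∧ PCh M P (fun i : J => c i) (fun i : J => Q i) ∧
      (∀ i : J, c i ∉ pre P (fun j : J => Q j) i) ∧ tot P (fun i : J => Q i) = tot P Q := by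
  classical
  let J : Set ι := {i | c i ∉ pre P Q i}
  have hsat : ∀ i, c i ∈ pre P Q i → Q i = pre P Q i := by
    intro i hi
    refine Subset.antisymm ?_ (h.pre_sub i)
    intro e he
    have hpm := h.pre_mem hC hc i
    have hat := h.atomic i
    have h1 : {c i} ∪ pre P Q i = pre P Q i :=
      union_eq_self_of_subset_left (singleton_subset_iff.2 hi)
    rw [h1] at hat
    obtain ⟨B, hB, hBc, hiso⟩ := hat.iso {e} (singleton_subset_iff.2 he)
      (small_finite (finite_singleton e))
    obtain ⟨g, hg, h2, h3⟩ := M.sat hpm hB hBc (small_finite (finite_singleton e)) (B := {e})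
    have h4 := hiso.eq_of_mem hg h2 (h3 e rfl)
    rw [← h4]
    exact h3 e rfl
  -- the part before `i` in the restricted chain
  have hpre : ∀ i : ι, P ∪ ⋃ j : {j : J // (j : ι) < i}, Q (j : J) = pre P Q i := by
    intro i
    induction i using (wellFounded_lt (α := ι)).induction with
    | h i ih =>
      refine Subset.antisymm ?_ ?_
      · refine union_subset_union_right P (iUnion_subset fun j => ?_)
        exact subset_iUnion (fun j : Iio i => Q j) ⟨(j : J), j.2⟩
      · refine union_subset subset_union_left (iUnion_subset fun j => ?_)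
        by_cases hj : (j : ι) ∈ J
        · exact (subset_iUnion (fun j : {j : J // (j : ι) < i} => Q (j : J))
            ⟨⟨j, hj⟩, j.2⟩).trans subset_union_right
        · have h1 : c (j : ι) ∈ pre P Q j := by
            by_contra h2
            exact hj h2
          rw [hsat j h1, ← ih j j.2]
          refine union_subset_union_right P (iUnion_subset fun k => ?_)
          exact subset_iUnion (fun j : {j : J // (j : ι) < i} => Q (j : J))
            ⟨k.1, lt_trans k.2 j.2⟩
  have hpre' : ∀ i : J, pre P (fun j : J => Q j) i = pre P Q i := by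
    intro i
    rw [← hpre i]
    rfl
  have htot : tot P (fun i : J => Q i) = tot P Q := by
    refine Subset.antisymm (union_subset_union_right P (iUnion_subset fun j =>
      subset_iUnion Q j)) ?_
    refine union_subset subset_union_left (iUnion_subset fun j => ?_)
    by_cases hj : j ∈ J
    · exact sub_tot P (fun i : J => Q i) ⟨j, hj⟩
    · have h1 : c j ∈ pre P Q j := by
        by_contra h2
        exact hj h2
      rw [hsat j h1, ← hpre j]
      refine union_subset_union_right P (iUnion_subset fun k => ?_)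
      exact subset_iUnion (fun i : J => Q i) k.1
  have hP : PCh M P (fun i : J => c i) (fun i : J => Q i) := by
    refine ⟨h.base, fun i => ?_, fun i => ?_⟩
    · rw [hpre' i]
      exact h.ind i
    · rw [hpre' i]
      exact h.atomic i
  have hni : ∀ i : J, c i ∉ pre P (fun j : J => Q j) i := fun i => by
    rw [hpre' i]
    exact i.2
  exact ⟨J, H27.exists_id hP (by rw [htot]; exact hc) hni, hP, hni, htot⟩

/-- `A` is a prime chain over `P`. -/
def PJ (M : PG C) (P A : Set C) : Prop := ∃ (κ : Type u) (_ : LinearOrder κ)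
  (_ : WellFoundedLT κ) (c : κ → C) (Q : κ → Set C), #κ ≤ M.χ ∧ PCh M P c Q ∧
    (∀ i, c i ∉ pre P Q i) ∧ tot P Q = A

/-- Atomic models over a prime chain and a model which is free from it. -/
def TopJK (M : PG C) : Prop := ∀ P ∈ M.S, ∀ A ∈ M.S, ∀ B ∈ M.S, P ⊆ A → P ⊆ B → M.Ind P A B →
  PJ M P A → ∃ N, M.Atomic N (A ∪ B)

theorem TopJK.mdJ (h : TopJK M) (hC : Chn M) : H74.MdJ M := by
  intro P hP D hD hPD ι _ _ c Q hch ht hI
  obtain ⟨J, hJ, hch', hni, htot⟩ := tot_restrict' hC hch (M.S_card ht).le
  obtain ⟨N, hN⟩ := h P hP _ ht D hD (subset_tot P Q) hPD hI ⟨J, _, inferInstance, _, _, hJ, hch',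
    hni, htot⟩
  rw [union_comm] at hN
  exact ⟨N, hN⟩

theorem TopJK.topJ (h : TopJK M) (hC : Chn M) : H27.TopJ M := by
  intro ι _ _ P c Q hch hι hc R hR hPR hI
  obtain ⟨N, hN⟩ := h.mdJ hC P hch.base R hR hPR ι c Q hch (hch.tot_mem hC hc) hI
  rw [union_comm] at hN
  exact ⟨N, hN⟩

end Vale.Agent.P307.R2.H301
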