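import Vale.Agent.P307.R2.H301.Din.Eng
import Vale.Agent.P307.R2.H301.Din.Pair
import Vale.Agent.P307.R2.H578.JR1
import Vale.Agent.P307.R2.H913.LLJ
import Vale.Agent.P307.R2.H427.Tiny1

/-!
The rows of the induction on the dimension, and the question from the rows.
-/

set_option linter.unusedSectionVars false

universe u

open FirstOrder Cardinal Set

namespace Vale.Agent.P307.R2.H301

open Vale.Agent.P307 Vale.Agent.P307.H304 Vale.Agent.P307.R2.H287 Vale.Agent.P307.R2.H1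
  Vale.Agent.P307.R2.H971 Vale.Agent.P307.R2.H804 Vale.Agent.P307.R2.H533
  Vale.Agent.P307.R2.H806 Vale.Agent.P307.R2.H718 Language.Structure Language.Substructure
  Vale.Agent.P307.R2.H650 Vale.Agent.P307.R2.H578
open Vale.Agent.P307.R2.H541 Vale.Agent.P307.R2.H541.PG
open Vale.Agent.P307.R2.H68 (Clo exists_clo)

open scoped Classical

section props

variable {C : Type u}

/-- Tameness of the types over the boundaries of the extensions of the systems of dimension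
`1, …, k` by one direction. -/
def TmK (k : ℕ) (M : PG C) : Prop := ∀ (ι : Type u) (A : Finset ι → Set C) (S : Finset ι) (c : ι),
  S.Nonempty → S.card ≤ k → Ext1 M A S c → M.Tm (ibd A (insert c S))

/-- Atomic tops over the extensions of the systems of dimension at most `k` by one direction. -/
def MdK (k : ℕ) (M : PG C) : Prop := ∀ (ι : Type u) (j : ℕ), j ≤ k → Md M ι j

/-- Tiny isolating sets in dimension one. -/
def TinyK (M : PG C) (τ : Cardinal.{u}) : Prop := ∀ P ∈ M.S, ∀ (N p : Set C), p.Finite →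
  M.Atomic N (p ∪ P) → ∀ E ⊆ N, #E < τ → ∃ B ⊆ p ∪ P, #B < τ ∧ M.Isol B (p ∪ P) E

/-- Closed traces of the pairs of models one of which is generated by finitely many points. -/
def GdPK (M : PG C) (τ : Cardinal.{u}) : Prop :=
  ∀ (ι : Type u) (A : Finset ι → Set C) (S : Finset ι) (c : ι), S.card = 1 → Ext1 M A S c →
    (∃ p : Set C, p.Finite ∧ M.Atomic (A {c}) (p ∪ A ∅)) →
      JRb M τ A S c ∧ TrR M τ (ibd A (insert c S))

/-- Closed traces of the pairs of models one of which is a prime chain. -/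
def GdJK (M : PG C) (τ : Cardinal.{u}) : Prop :=
  ∀ (ι : Type u) (A : Finset ι → Set C) (S : Finset ι) (c : ι), S.card = 1 → Ext1 M A S c →
    PJ M (A ∅) (A {c}) → JRb M τ A S c ∧ TrR M τ (ibd A (insert c S))

/-- The limit lemma for a prime chain and a model. -/
def LLJK (M : PG C) (τ : Cardinal.{u}) : Prop := ∀ P ∈ M.S, ∀ A ∈ M.S, ∀ B ∈ M.S, P ⊆ A →
  P ⊆ B → M.Ind P A B → PJ M P A → LLp M τ A B

/-- The limit lemma for pairs of models. -/
def LLK (M : PG C) (τ : Cardinal.{u}) : Prop := ∀ P ∈ M.S, ∀ A ∈ M.S, ∀ B ∈ M.S, P ⊆ A →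
  P ⊆ B → M.Ind P A B → LLp M τ A B

/-- Closed traces of all the boundaries of dimension at most `k + 1`. -/
def GdK (k : ℕ) (M : PG C) (τ : Cardinal.{u}) : Prop :=
  ∀ (ι : Type u) (j : ℕ), j ≤ k + 1 → JRk M τ ι j ∧ SHk M τ ι j

variable {M : PG C} {τ : Cardinal.{u}} {k : ℕ} {ι : Type u} {A : Finset ι → Set C}
  {S : Finset ι} {c : ι}

theorem card_ibd (hE : Ext1 M A S c) : #(ibd A (insert c S)) ≤ M.χ := by
  rw [← iun_ssubsets]
  exact card_iun (M := M) fun v hv => (M.S_card (hE.fam.mem v hv)).le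

theorem GdK.jrb (h : GdK k M τ) (hM : M.Calc) (hls : ∀ X : Set C, #X ≤ M.χ → ∃ N ∈ M.S, X ⊆ N)
    (hE : Ext1 M A S c) (hS : S.card ≤ k) : JRb M τ A S c := by
  obtain ⟨N, hN, hXN⟩ := hls _ (card_ibd hE)
  obtain ⟨φ, h1, h2⟩ := (h ι (insert c S).card (by
    rw [Finset.card_insert_of_notMem hE.notMem]
    omega)).1 A (insert c S) rfl hE.fam (hE.ref hM) N hN hXN
  exact ⟨φ, h1, fun H hH hHc => (h2 H hH hHc).mono (Finset.Subset.refl _)
    (inter_subset_inter_left H hXN)⟩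

theorem GdK.trR (h : GdK k M τ) (hM : M.Calc) (hls : ∀ X : Set C, #X ≤ M.χ → ∃ N ∈ M.S, X ⊆ N)
    (hE : Ext1 M A S c) (hS : S.card ≤ k) : TrR M τ (ibd A (insert c S)) :=
  TrR.of_trN hls (card_ibd hE) ((h ι (insert c S).card (by
    rw [Finset.card_insert_of_notMem hE.notMem]
    omega)).2 A (insert c S) rfl hE.fam (hE.ref hM))

end props

section

variable {L : Language.{u, u}} (K : AEC L) (ℓ : Cardinal.{u})
  (κf α : Cardinal.{u} → Cardinal.{u})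

/-- The property `Φ` holds at all the base points of some rank. -/
def EvM (Φ : ∀ C : Type u, PG C → Prop) : Prop :=
  ∃ r : ℕ, ∀ θ, Rk K ℓ κf α r θ → AllPG K ℓ κf α θ Φ

/-- The property `Ψ` holds at all the base points `θ` of some rank and all the large enough base
points of this rank below `θ`. -/
def EvL (Ψ : ∀ C : Type u, PG C → Cardinal.{u} → Prop) : Prop :=
  ∃ r : ℕ, ∀ θ, Rk K ℓ κf α r θ → AllPG K ℓ κf α θ fun C M =>
    ∃ τ₀ < θ, ∀ τ, τ₀ ≤ τ → τ < θ → Rk K ℓ κf α r τ → Ψ C M τ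

variable {K ℓ κf α}

theorem EvM.and {Φ Φ' : ∀ C : Type u, PG C → Prop} (h : EvM K ℓ κf α Φ) (h' : EvM K ℓ κf α Φ') :
    EvM K ℓ κf α fun C M => Φ C M ∧ Φ' C M := by
  obtain ⟨r, h⟩ := h
  obtain ⟨r', h'⟩ := h'
  exact ⟨max r r', fun θ hθ h₀ hK hunb hst C _ hCm hs hCc =>
    ⟨h θ (hθ.mono (le_max_left _ _)) h₀ hK hunb hst C hCm hs hCc,
      h' θ (hθ.mono (le_max_right _ _)) h₀ hK hunb hst C hCm hs hCc⟩⟩

theorem EvL.and {Ψ Ψ' : ∀ C : Type u, PG C → Cardinal.{u} → Prop} (h : EvL K ℓ κf α Ψ)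
    (h' : EvL K ℓ κf α Ψ') : EvL K ℓ κf α fun C M τ => Ψ C M τ ∧ Ψ' C M τ := by
  obtain ⟨r, h⟩ := h
  obtain ⟨r', h'⟩ := h'
  refine ⟨max r r', fun θ hθ h₀ hK hunb hst C _ hCm hs hCc => ?_⟩
  obtain ⟨τ₀, h1, h2⟩ := h θ (hθ.mono (le_max_left _ _)) h₀ hK hunb hst C hCm hs hCc
  obtain ⟨τ₁, h3, h4⟩ := h' θ (hθ.mono (le_max_right _ _)) h₀ hK hunb hst C hCm hs hCc
  exact ⟨max τ₀ τ₁, max_lt h1 h3, fun τ h5 h6 h7 =>
    ⟨h2 τ ((le_max_left _ _).trans h5) h6 (h7.mono (le_max_left _ _)),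
      h4 τ ((le_max_right _ _).trans h5) h6 (h7.mono (le_max_right _ _))⟩⟩

/-- A property of the pairs of base points gives a property of the levels. -/
theorem EvL.of_all {Ψ : ∀ C : Type u, PG C → Cardinal.{u} → Prop} {r : ℕ}
    (h : ∀ θ τ, τ < θ → Rk K ℓ κf α r θ → Rk K ℓ κf α r τ →
      AllPG K ℓ κf α θ fun C M => Ψ C M τ) : EvL K ℓ κf α Ψ :=
  ⟨r, fun θ hθ h₀ hK hunb hst C _ hCm hs hCc => ⟨ℓ, h₀.pt.lt, fun τ _ hτθ hτ =>
    h θ τ hτθ hθ hτ h₀ hK hunb hst C hCm hs hCc⟩⟩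

/-- The general step: from one level to the next base point. -/
theorem evM_of {Φ Θ : ∀ C : Type u, PG C → Prop} {Ψ : ∀ C : Type u, PG C → Cardinal.{u} → Prop}
    (hΦ : EvM K ℓ κf α Φ) (hΨ : EvL K ℓ κf α Ψ)
    (h : ∀ (θ : Cardinal.{u}) (h₀ : BasePt K ℓ κf α θ) (hK : K.IsLS ℓ)
      (hunb : ∀ ν, ν < κf ν ∧ K.CategoricalIn (κf ν)) (hst : Stab K ℓ α (H287.thr κf))
      (C : Type u) [L.Structure C] (hCm : K.mem C) (hs : Sat K θ C) (hCc : #C = Order.succ θ),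
      Φ C (pg h₀ hK hunb hst hCm hs hCc) →
      (∀ σ < θ, ∃ τ, σ < τ ∧ BasePt K ℓ κf α τ ∧ τ < θ ∧ AllPG K ℓ κf α τ Φ ∧
        Ψ C (pg h₀ hK hunb hst hCm hs hCc) τ) → Θ C (pg h₀ hK hunb hst hCm hs hCc)) :
    EvM K ℓ κf α Θ := by
  obtain ⟨r, hΦ⟩ := hΦ
  obtain ⟨r', hΨ⟩ := hΨ
  refine ⟨max r r' + 1, fun θ hθ h₀ hK hunb hst C _ hCm hs hCc => ?_⟩
  have hθr := hθ.pred
  refine h θ h₀ hK hunb hst C hCm hs hCc
    (hΦ θ (hθr.mono (le_max_left _ _)) h₀ hK hunb hst C hCm hs hCc) fun σ hσ => ?_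
  obtain ⟨τ₀, h1, h2⟩ := hΨ θ (hθr.mono (le_max_right _ _)) h₀ hK hunb hst C hCm hs hCc
  obtain ⟨τ, h3, h4, h5⟩ := hθ.exists_btw (max_lt hσ h1)
  exact ⟨τ, (le_max_left _ _).trans_lt h3, h5.base, h4, hΦ τ (h5.mono (le_max_left _ _)),
    h2 τ ((le_max_right _ _).trans h3.le) h4 (h5.mono (le_max_right _ _))⟩

end

section

variable {L : Language.{u, u}} {K : AEC L} {ℓ θ τ : Cardinal.{u}}
  {κf α : Cardinal.{u} → Cardinal.{u}} {C : Type u} [L.Structure C]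

theorem chnAt_of' (hK : K.IsLS ℓ) (hunb : ∀ ν, ν < κf ν ∧ K.CategoricalIn (κf ν))
    (hst : Stab K ℓ α (H287.thr κf)) (hτ : BasePt K ℓ κf α τ)
    (h : AllPG K ℓ κf α τ fun _ M => Chn M) : ChnAt hK hunb hst hτ C :=
  fun C' hC' hC'c hC's => h hτ hK hunb hst C' (K.mem_of_le _ hC').1 hC's hC'c

theorem tmAt_of' (hK : K.IsLS ℓ) (hunb : ∀ ν, ν < κf ν ∧ K.CategoricalIn (κf ν))
    (hst : Stab K ℓ α (H287.thr κf)) (hτ : BasePt K ℓ κf α τ) {k : ℕ}
    (h : AllPG K ℓ κf α τ fun _ M => TmK k M) {ι : Type u} {S : Finset ι} {c : ι}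
    (hS : S.Nonempty) (hSk : S.card ≤ k) : TmAt hK hunb hst hτ C S c :=
  fun C' hC' hC'c hC's A' hA' =>
    h hτ hK hunb hst C' (K.mem_of_le _ hC').1 hC's hC'c ι A' S c hS hSk hA'

end

section

variable {L : Language.{u, u}} {K : AEC L} {ℓ : Cardinal.{u}}
  {κf α : Cardinal.{u} → Cardinal.{u}}

/-- Types over pairs of models. -/
theorem evM_tm1 : EvM K ℓ κf α fun _ M => TmK 1 M := by
  refine ⟨0, fun θ _ h₀ hK hunb hst C _ hCm hs hCc ι A S c hS0 hS hE => ?_⟩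
  have h1 := Finset.card_pos.2 hS0
  rw [ibd_one hE (by omega), union_comm]
  have h2 := pg_tm_two h₀ hK hunb hst hCm hs hCc (hE.sys.mem (Finset.empty_subset _)) hE.memc
    (hE.sys.mem (Finset.Subset.refl S)) hE.base
    (hE.sys.mono (Finset.Subset.refl S) (Finset.empty_subset _)) hE.ind
  rwa [union_comm] at h2

/-- Tiny isolating sets in dimension one. -/
theorem evL_tiny (hF : Frame K ℓ κf α) : EvL K ℓ κf α fun _ M τ => TinyK M τ :=
  EvL.of_all (r := 0) fun θ τ hτθ _ hτ h₀ hK hunb hst C _ hCm hs hCc P hP N p hp hN E hE hEc => by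
    obtain ⟨Λ, hθΛ, hΛ⟩ := hF.exists_gt θ
    exact H427.pg_tiny1 h₀ hK hunb hst hCm hs hCc hΛ hθΛ hτ.base hτθ hP hp hN hE hEc

/-- **Pairs of models one of which is generated by one point.** -/
theorem evM_pt1 (hC : EvM K ℓ κf α fun _ M => Chn M) (h1 : EvL K ℓ κf α fun _ M τ => TinyK M τ)
    (hG : EvL K ℓ κf α fun _ M τ => GdPK M τ) : EvM K ℓ κf α fun _ M => Pt1 M := by
  refine evM_of (hC.and evM_tm1) (h1.and hG) fun θ h₀ hK hunb hst C _ hCm hs hCc hΦ hΨ => ?_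
  intro P hP Q hQ hPQ c N hI hN
  have hcalc := pg_calc h₀ hK hunb hst hCm hs hCc
  obtain ⟨ι, A, S, c', hS, hE, hA0, hAc, hAS⟩ := exists_ext_pair hP hN.mem hQ
    (subset_union_right.trans hN.sub) hPQ (hN.dom hI)
  have hS0 : S.Nonempty := Finset.card_pos.1 (by omega)
  have hat : (pg h₀ hK hunb hst hCm hs hCc).Atomic (A {c'}) ({c} ∪ A ∅) := by
    rw [hAc, hA0]
    exact hN
  have hu0 : ∀ u : Finset ι, u ⊆ S → u.Nonempty → u = S := by
    intro u hu h2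
    have h3 := Finset.card_pos.2 h2
    exact Finset.eq_of_subset_of_card_le hu (by omega)
  obtain ⟨N', hN'⟩ := exists_atomic_of h₀ hK hunb hst hCm hs hCc hE hS0
    (hΦ.2 ι A S c' hS0 hS.le hE) fun σ hσ => by
      obtain ⟨τ, h2, hτ, hτθ, h3, h4, h5⟩ := hΨ σ hσ
      obtain ⟨h6, h7⟩ := h5 ι A S c' hS hE ⟨{c}, finite_singleton c, hat⟩
      refine ⟨τ, h2, hτ, hτθ, tmAt_of' hK hunb hst hτ (fun h₀ hK hunb hst C _ hCm hs hCc =>
        (h3 h₀ hK hunb hst C hCm hs hCc).2) hS0 hS.le, h6, fun u hu h => ?_, ?_⟩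
      · rw [hu0 u hu h]
        exact h7
      · exact lim_point h₀ hK hunb hst hCm hs hCc hτ hτθ (chnAt_of' hK hunb hst hτ
          fun h₀ hK hunb hst C _ hCm hs hCc => (h3 h₀ hK hunb hst C hCm hs hCc).1)
          (finite_singleton c) hat fun E hE' hEc => h4 (A ∅) (by rw [hA0]; exact hP) _ _
            (finite_singleton c) hat E hE' hEc
  rw [ibd_one hE hS, hAc, hAS, union_comm] at hN'
  exact ⟨N', hN'⟩

/-- The limit lemma for prime chains. -/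
theorem evL_llj (hF : Frame K ℓ κf α) (hC : EvM K ℓ κf α fun _ M => Chn M)
    (hP : EvM K ℓ κf α fun _ M => Pt1 M) : EvL K ℓ κf α fun _ M τ => LLJK M τ := by
  obtain ⟨r, h⟩ := hC.and hP
  refine EvL.of_all (r := r) fun θ τ hτθ hθ hτ h₀ hK hunb hst C _ hCm hs hCc P hP A hA B hB hPA
    hPB hI hJ => ?_
  obtain ⟨Λ, hθΛ, hΛ⟩ := hF.exists_gt θ
  obtain ⟨κ, _, _, c, Q, hκ, hch, hni, rfl⟩ := hJ
  have hτb := hτ.base
  obtain ⟨φ, h1, h2⟩ := H913.pg_llj h₀ hK hunb hst hCm hs hCc hΛ hθΛ hτb hτθ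
    (chnAt_of' hK hunb hst hτb fun h₀ hK hunb hst C _ hCm hs hCc =>
      (h τ hτ h₀ hK hunb hst C hCm hs hCc).1)
    (fun C' hC' hC'c hC's => (h τ hτ hτb hK hunb hst C' (K.mem_of_le _ hC').1 hC's hC'c).2)
    hch (fun j hj => hni j (subset_pre P Q j hj))
    (fun j => hch.pre_mem (h θ hθ h₀ hK hunb hst C hCm hs hCc).1
      ((pg h₀ hK hunb hst hCm hs hCc).S_card hA).le j) hA hB hPB hI
  exact ⟨φ, h1, fun I _ _ _ hI z hz hzc hzτ f hf => h2 I hI z hz hzc hzτ f hf⟩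

/-- **Pairs of models one of which is a prime chain.** -/
theorem evM_topJ (hC : EvM K ℓ κf α fun _ M => Chn M) (hL : EvL K ℓ κf α fun _ M τ => LLJK M τ)
    (hG : EvL K ℓ κf α fun _ M τ => GdJK M τ) : EvM K ℓ κf α fun _ M => TopJK M := by
  refine evM_of (hC.and evM_tm1) (hL.and hG) fun θ h₀ hK hunb hst C _ hCm hs hCc hΦ hΨ => ?_
  intro P hP N hN Q hQ hPN hPQ hI hJ
  obtain ⟨ι, A, S, c', hS, hE, hA0, hAc, hAS⟩ := exists_ext_pair hP hN hQ hPN hPQ hI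
  have hS0 : S.Nonempty := Finset.card_pos.1 (by omega)
  have hu0 : ∀ u : Finset ι, u ⊆ S → u.Nonempty → u = S := by
    intro u hu h2
    have h3 := Finset.card_pos.2 h2
    exact Finset.eq_of_subset_of_card_le hu (by omega)
  obtain ⟨N', hN'⟩ := exists_atomic_of h₀ hK hunb hst hCm hs hCc hE hS0
    (hΦ.2 ι A S c' hS0 hS.le hE) fun σ hσ => by
      obtain ⟨τ, h2, hτ, hτθ, h3, h4, h5⟩ := hΨ σ hσ
      obtain ⟨h6, h7⟩ := h5 ι A S c' hS hE (by rw [hAc, hA0]; exact hJ)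
      refine ⟨τ, h2, hτ, hτθ, tmAt_of' hK hunb hst hτ (fun h₀ hK hunb hst C _ hCm hs hCc =>
        (h3 h₀ hK hunb hst C hCm hs hCc).2) hS0 hS.le, h6, fun u hu h => ?_, ?_⟩
      · rw [hu0 u hu h]
        exact h7
      · exact lim_pair h₀ hK hunb hst hCm hs hCc hE hS0 hτ hτθ (chnAt_of' hK hunb hst hτ
          fun h₀ hK hunb hst C _ hCm hs hCc => (h3 h₀ hK hunb hst C hCm hs hCc).1)
          (by
            rw [hAc, hAS]
            exact h4 P hP N hN Q hQ hPN hPQ hI hJ)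
  rw [ibd_one hE hS, hAc, hAS] at hN'
  exact ⟨N', hN'⟩

/-- **Arbitrary directions.** -/
theorem evM_md {k : ℕ} (hC : EvM K ℓ κf α fun _ M => Chn M)
    (hT : EvM K ℓ κf α fun _ M => TmK (k + 1) M) (hL : EvL K ℓ κf α fun _ M τ => LLK M τ)
    (hG : EvL K ℓ κf α fun _ M τ => GdK (k + 1) M τ) :
    EvM K ℓ κf α fun _ M => MdK (k + 1) M := by
  refine evM_of (hC.and hT) (hL.and hG) fun θ h₀ hK hunb hst C _ hCm hs hCc hΦ hΨ => ?_
  intro ι j hj A S c hS hE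
  rcases Nat.eq_zero_or_pos j with rfl | hj0
  · exact md_zero _ A S c hS hE
  have hS0 : S.Nonempty := Finset.card_pos.1 (by omega)
  have hSk : S.card ≤ k + 1 := hS.trans_le hj
  have hcalc := pg_calc h₀ hK hunb hst hCm hs hCc
  have hls := (pg_big h₀ hK hunb hst hCm hs hCc).ls
  refine exists_atomic_of h₀ hK hunb hst hCm hs hCc hE hS0 (hΦ.2 ι A S c hS0 hSk hE)
    fun σ hσ => ?_
  obtain ⟨τ, h2, hτ, hτθ, h3, h4, h5⟩ := hΨ σ hσ
  refine ⟨τ, h2, hτ, hτθ, tmAt_of' hK hunb hst hτ (fun h₀ hK hunb hst C _ hCm hs hCc =>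
    (h3 h₀ hK hunb hst C hCm hs hCc).2) hS0 hSk, h5.jrb hcalc hls hE hSk, fun u hu _ =>
      h5.trR hcalc hls (hE.sub hu) ((Finset.card_le_card hu).trans hSk), ?_⟩
  exact lim_pair h₀ hK hunb hst hCm hs hCc hE hS0 hτ hτθ (chnAt_of' hK hunb hst hτ
    fun h₀ hK hunb hst C _ hCm hs hCc => (h3 h₀ hK hunb hst C hCm hs hCc).1)
    (h4 (A ∅) (hE.sys.mem (Finset.empty_subset _)) (A {c}) hE.memc (A S)
      (hE.sys.mem (Finset.Subset.refl S)) hE.base
      (hE.sys.mono (Finset.Subset.refl S) (Finset.empty_subset _)) hE.ind)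

variable (K ℓ κf α) in
/-- The rows. -/
structure RowsF : Prop where
  /-- Chains. -/
  lc : EvM K ℓ κf α fun _ M => Chn M
  /-- Closed traces of the pairs one of which is generated by finitely many points. -/
  gdp : EvL K ℓ κf α fun _ M τ => GdPK M τ
  /-- Closed traces of the pairs one of which is a prime chain. -/
  gdj : (EvM K ℓ κf α fun _ M => Pt1 M) → EvL K ℓ κf α fun _ M τ => GdJK M τ
  /-- The limit lemma for pairs. -/
  ll : (EvM K ℓ κf α fun _ M => Pt1 M) → (EvM K ℓ κf α fun _ M => TopJK M) →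
    (EvL K ℓ κf α fun _ M τ => GdJK M τ) → EvL K ℓ κf α fun _ M τ => LLK M τ
  /-- Closed traces of the pairs. -/
  gd1 : (EvM K ℓ κf α fun _ M => Pt1 M) → (EvM K ℓ κf α fun _ M => TopJK M) →
    (EvL K ℓ κf α fun _ M τ => LLK M τ) → EvL K ℓ κf α fun _ M τ => GdK 1 M τ
  /-- Types over boundaries. -/
  tx : ∀ k, 1 ≤ k → (EvM K ℓ κf α fun _ M => Pt1 M) → (EvM K ℓ κf α fun _ M => TopJK M) →
    (EvM K ℓ κf α fun _ M => MdK k M) → (EvL K ℓ κf α fun _ M τ => GdK k M τ) →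
      (EvM K ℓ κf α fun _ M => TmK k M) → EvM K ℓ κf α fun _ M => TmK (k + 1) M
  /-- Closed traces of the boundaries. -/
  gd : ∀ k, 1 ≤ k → (EvM K ℓ κf α fun _ M => Pt1 M) → (EvM K ℓ κf α fun _ M => TopJK M) →
    (EvM K ℓ κf α fun _ M => MdK k M) → (EvL K ℓ κf α fun _ M τ => GdK k M τ) →
      (EvM K ℓ κf α fun _ M => TmK (k + 1) M) → EvL K ℓ κf α fun _ M τ => GdK (k + 1) M τ

/-- **The induction on the dimension.** -/
theorem RowsF.tops (hF : Frame K ℓ κf α) (h : RowsF K ℓ κf α) (k : ℕ) :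
    EvM K ℓ κf α fun _ M => MdK k M := by
  have hpt := evM_pt1 h.lc (evL_tiny hF) h.gdp
  have hgj := h.gdj hpt
  have htj := evM_topJ h.lc (evL_llj hF h.lc hpt) hgj
  have hll := h.ll hpt htj hgj
  have key : ∀ k, 1 ≤ k → (EvM K ℓ κf α fun _ M => MdK k M) ∧
      (EvL K ℓ κf α fun _ M τ => GdK k M τ) ∧ EvM K ℓ κf α fun _ M => TmK k M := by
    intro k hk
    induction k, hk using Nat.le_induction with
    | base => exact ⟨evM_md h.lc evM_tm1 hll (h.gd1 hpt htj hll), h.gd1 hpt htj hll, evM_tm1⟩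
    | succ k hk ih =>
      obtain ⟨h2, h3, h4⟩ := ih
      have h5 := h.tx k hk hpt htj h2 h3 h4
      have h6 := h.gd k hk hpt htj h2 h3 h5
      exact ⟨evM_md h.lc h5 hll h6, h6, h5⟩
  rcases Nat.eq_zero_or_pos k with rfl | hk
  · exact ⟨0, fun θ _ => fun h₀ hK hunb hst C _ hCm hs hCc ι j hj =>
      tops_zero θ h₀ hK hunb hst C hCm hs hCc ι j hj⟩
  · exact (key k hk).1

end

/-- **The question** from the rows. -/
theorem q1_of_rowsF (H : ∀ (L : Language.{u, u}) (K : AEC L) (ℓ : Cardinal.{u})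
      (κf α : Cardinal.{u} → Cardinal.{u}), Frame K ℓ κf α → RowsF K ℓ κf α) (l : Cardinal.{u}) :
    ∃ μ : Cardinal.{u}, l ≤ μ ∧ ∀ (L : Language.{u, u}) (K : AEC L), K.LS ≤ l →
      ∀ κ, μ ≤ κ → K.CategoricalIn κ → ∀ κ', μ ≤ κ' → K.CategoricalIn κ' :=
  q1_of_tops (fun L K ℓ κf α hF k => (H L K ℓ κf α hF).tops hF k) l

end Vale.Agent.P307.R2.H301
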