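import Vale.Agent.P307.R2.H301.Din.Pg
import Vale.Agent.P307.R2.H806.LimPG

/-!
The closed traces of the boundary of an extension of a system by one direction: tameness and
continuity.
-/

set_option linter.unusedSectionVars false

universe u

open FirstOrder Cardinal Set

namespace Vale.Agent.P307.R2.H301

open Vale.Agent.P307 Vale.Agent.P307.H304 Vale.Agent.P307.R2.H287 Vale.Agent.P307.R2.H1
  Vale.Agent.P307.R2.H971 Vale.Agent.P307.R2.H804 Vale.Agent.P307.R2.H533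
  Vale.Agent.P307.R2.H806 Language.Structure Language.Substructure
open Vale.Agent.P307.R2.H541 Vale.Agent.P307.R2.H541.PG
open Vale.Agent.P307.R2.H68 (Clo exists_clo)

open scoped Classical

variable {L : Language.{u, u}} {K : AEC L} {ℓ θ τ : Cardinal.{u}}
  {κf α : Cardinal.{u} → Cardinal.{u}} {C : Type u} [L.Structure C]

section

variable (h₀ : BasePt K ℓ κf α θ) (hK : K.IsLS ℓ)
  (hunb : ∀ ν, ν < κf ν ∧ K.CategoricalIn (κf ν)) (hst : Stab K ℓ α (H287.thr κf))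
  (hCm : K.mem C) (hs : Sat K θ C) (hCc : #C = Order.succ θ)

variable {ι : Type u} {A : Finset ι → Set C} {S : Finset ι} {c : ι} {Z : Set (Set C)}

/-- Tameness over the boundaries of the extensions of systems by one direction, in the saturated
strong submodels of size `τ⁺`. -/
def TmAt (hK : K.IsLS ℓ) (hunb : ∀ ν, ν < κf ν ∧ K.CategoricalIn (κf ν))
    (hst : Stab K ℓ α (H287.thr κf)) (hτ : BasePt K ℓ κf α τ) (C : Type u) [L.Structure C]
    {ι : Type u} (S : Finset ι) (c : ι) : Prop :=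
  ∀ (C' : L.Substructure C) (hC' : K.le C') (hC'c : #C' = Order.succ τ) (hC's : Sat K τ C'),
    ∀ A' : Finset ι → Set (C' : Set C), Ext1 (pgLow hK hunb hst hτ hC' hC'c hC's) A' S c →
      (pgLow hK hunb hst hτ hC' hC'c hC's).Tm (ibd A' (insert c S))

include h₀ hCm hs hCc in
/-- The closed traces of the boundary are tame. -/
theorem tmA_trace (hτ : BasePt K ℓ κf α τ) (hτθ : τ < θ)
    (h : Good1 (pg h₀ hK hunb hst hCm hs hCc) τ A S c Z) (hZS : StrZ K τ A S c Z)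
    (hT : TmAt hK hunb hst hτ C S c) {H : Set C} (hH : H ∈ Z) :
    TmA hK hunb hst hτ (ibd A (insert c S) ∩ H) := by
  intro C' hC' hC'c hC's hXC'
  have hL := pg_low h₀ hK hunb hst hCm hs hCc hτ hτθ hC' hC'c hC's
  have hD : ∀ t, t ⊂ insert c S → A t ∩ H ⊆ (C' : Set C) := fun t ht x hx =>
    hXC' ⟨⟨t, ht, hx.1⟩, hx.2⟩
  have h1 : Ext1 (pgLow hK hunb hst hτ hC' hC'c hC's)
      (fun t => PG.tr (C' : Set C) (A t ∩ H)) S c :=
    Low.ext1_tr' (M' := pgLow hK hunb hst hτ hC' hC'c hC's) hL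
      (pg_noOrd h₀ hK hunb hst hCm hs hCc hτ hτθ) h.ext h.ne
      (fun t ht => tr_mem hK hunb hst hτ hC' hC'c hC's (hZS H hH t ht) (hD t ht)) hD
      (h.jr H hH) (h.tiny H hH)
  have h2 := hT C' hC' hC'c hC's _ h1
  rwa [ibd_tr] at h2

/-- The behaviour of the closed traces of the boundary, from continuity. -/
theorem trX_of (hτ : BasePt K ℓ κf α τ) (hτθ : τ < θ)
    (Λ : Lv (pg h₀ hK hunb hst hCm hs hCc) τ)
    (hΛ : Λ.Γ = pgEM h₀ hK hunb hst hCm hs hCc hτ hτθ) {φ : Finset C → Set C}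
    (hφ : ∀ s, #(φ s) ≤ τ)
    (h : Good1 (pg h₀ hK hunb hst hCm hs hCc) τ A S c {H | Clo φ H ∧ #H ≤ τ})
    (hZS : StrZ K τ A S c {H | Clo φ H ∧ #H ≤ τ}) (hT : TmAt hK hunb hst hτ C S c)
    (hlim : ∀ (I : Type u) [LinearOrder I] [WellFoundedLT I] [Nonempty I], #I ≤ τ →
      ∀ z : I → Set C, Monotone z →
      (∀ i, Clo φ (z i)) → (∀ i, #(z i) ≤ τ) → ∀ f : C → C,
      (∀ i, (pg h₀ hK hunb hst hCm hs hCc).LET τ f (ibd A (insert c S) ∩ z i)) →
        (pg h₀ hK hunb hst hCm hs hCc).LET τ f (ibd A (insert c S) ∩ ⋃ i, z i)) :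
    TrX Λ (ibd A (insert c S)) φ where
  card := hφ
  tame := fun H hH hHc f hf => by
    have h1 := emp_of_tmA h₀ hK hunb hst hCm hs hCc hτ hτθ (f := f)
      ((mk_le_mk_of_subset inter_subset_right).trans hHc)
      (tmA_trace h₀ hK hunb hst hCm hs hCc hτ hτθ h hZS hT (H := H) ⟨hH, hHc⟩) hf
    rw [hΛ]
    exact h1
  lim := fun ι _ _ _ hι H hH hcl hc f hf => hlim ι hι H hH hcl hc f hf

end

end Vale.Agent.P307.R2.H301
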