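import Vale.Agent.P307.R2.H718.Master
import Vale.Agent.P307.R2.H301.Din.Tr
import Vale.Agent.P307.R2.H287.PgLv

/-!
The statements of the induction on the dimension.
-/

set_option linter.unusedSectionVars false

universe u

open FirstOrder Cardinal Set

namespace Vale.Agent.P307.R2.H301

open Vale.Agent.P307 Vale.Agent.P307.H304 Vale.Agent.P307.R2.H287 Vale.Agent.P307.R2.H1
  Vale.Agent.P307.R2.H971 Vale.Agent.P307.R2.H804 Vale.Agent.P307.R2.H533
  Vale.Agent.P307.R2.H806 Vale.Agent.P307.R2.H718 Language.Structure Language.Substructure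
open Vale.Agent.P307.R2.H541 Vale.Agent.P307.R2.H541.PG
open Vale.Agent.P307.R2.H68 (Clo exists_clo)

open scoped Classical

variable {L : Language.{u, u}} (K : AEC L) (ℓ : Cardinal.{u})
  (κf α : Cardinal.{u} → Cardinal.{u})

/-- The property `U` holds at all the base points of some rank. -/
def Ev (U : Cardinal.{u} → Prop) : Prop := ∃ r : ℕ, ∀ θ, Rk K ℓ κf α r θ → U θ

/-- The property `B` holds for all the pairs of base points of some rank. -/
def Ev2 (B : Cardinal.{u} → Cardinal.{u} → Prop) : Prop :=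
  ∃ r : ℕ, ∀ θ τ, τ < θ → Rk K ℓ κf α r θ → Rk K ℓ κf α r τ → B θ τ

variable {K ℓ κf α} in
theorem Ev.and {U V : Cardinal.{u} → Prop} (h : Ev K ℓ κf α U) (h' : Ev K ℓ κf α V) :
    Ev K ℓ κf α fun θ => U θ ∧ V θ := by
  obtain ⟨r, h1⟩ := h
  obtain ⟨r', h2⟩ := h'
  exact ⟨max r r', fun θ hθ => ⟨h1 θ (hθ.mono (le_max_left _ _)), h2 θ (hθ.mono (le_max_right _ _))⟩⟩

/-! The unary and the binary properties. -/

/-- Tameness of the types over the boundaries of the extensions of the systems of dimension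
`1, …, k` by one direction. -/
def TmU (k : ℕ) (θ : Cardinal.{u}) : Prop :=
  ∀ (h₀ : BasePt K ℓ κf α θ) (hK : K.IsLS ℓ) (hunb : ∀ ν, ν < κf ν ∧ K.CategoricalIn (κf ν))
    (hst : Stab K ℓ α (H287.thr κf)) (C : Type u) [L.Structure C] (hCm : K.mem C)
    (hs : Sat K θ C) (hCc : #C = Order.succ θ) (ι : Type u) (A : Finset ι → Set C)
    (S : Finset ι) (c : ι), S.Nonempty → S.card ≤ k → Ext1 (pg h₀ hK hunb hst hCm hs hCc) A S c →
      (pg h₀ hK hunb hst hCm hs hCc).Tm (ibd A (insert c S))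

/-- Atomic models over pairs of models one of which is generated by finitely many points. -/
def PtU (θ : Cardinal.{u}) : Prop :=
  ∀ (h₀ : BasePt K ℓ κf α θ) (hK : K.IsLS ℓ) (hunb : ∀ ν, ν < κf ν ∧ K.CategoricalIn (κf ν))
    (hst : Stab K ℓ α (H287.thr κf)) (C : Type u) [L.Structure C] (hCm : K.mem C)
    (hs : Sat K θ C) (hCc : #C = Order.succ θ) (ι : Type u),
      H533.Pt (pg h₀ hK hunb hst hCm hs hCc) ι 1

/-- The chain conditions (unions, gluing, local character). -/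
def ChnU (θ : Cardinal.{u}) : Prop :=
  ∀ (h₀ : BasePt K ℓ κf α θ) (hK : K.IsLS ℓ) (hunb : ∀ ν, ν < κf ν ∧ K.CategoricalIn (κf ν))
    (hst : Stab K ℓ α (H287.thr κf)) (C : Type u) [L.Structure C] (hCm : K.mem C)
    (hs : Sat K θ C) (hCc : #C = Order.succ θ), H650.Chn (pg h₀ hK hunb hst hCm hs hCc)

/-- Joint reflection of the faces into their closed traces, and shrinking of isolating sets. -/
def Gd {C : Type u} (M : PG C) (τ : Cardinal.{u}) {ι : Type u} (A : Finset ι → Set C)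
    (S : Finset ι) (c : ι) : Prop :=
  (∃ φ : Finset C → Set C, (∀ s, #(φ s) ≤ τ) ∧ ∀ H, Clo φ H → #H ≤ τ →
    M.JR τ A (insert c S).ssubsets H (ibd A (insert c S) ∩ H)) ∧
  TrB M τ (ibd A (insert c S))

/-- The good behaviour of the closed traces at the level `τ` of the boundaries of the extensions of
the systems of dimension `1, …, k` by one direction, at the level `θ`. -/
def GdU (k : ℕ) (θ τ : Cardinal.{u}) : Prop :=
  ∀ (h₀ : BasePt K ℓ κf α θ) (hK : K.IsLS ℓ) (hunb : ∀ ν, ν < κf ν ∧ K.CategoricalIn (κf ν))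
    (hst : Stab K ℓ α (H287.thr κf)) (C : Type u) [L.Structure C] (hCm : K.mem C)
    (hs : Sat K θ C) (hCc : #C = Order.succ θ) (ι : Type u) (A : Finset ι → Set C)
    (S : Finset ι) (c : ι), S.Nonempty → S.card ≤ k → Ext1 (pg h₀ hK hunb hst hCm hs hCc) A S c →
      Gd (pg h₀ hK hunb hst hCm hs hCc) τ A S c

/-- The same for the pairs of models one of which is generated by finitely many points. -/
def GdP (θ τ : Cardinal.{u}) : Prop :=
  ∀ (h₀ : BasePt K ℓ κf α θ) (hK : K.IsLS ℓ) (hunb : ∀ ν, ν < κf ν ∧ K.CategoricalIn (κf ν))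
    (hst : Stab K ℓ α (H287.thr κf)) (C : Type u) [L.Structure C] (hCm : K.mem C)
    (hs : Sat K θ C) (hCc : #C = Order.succ θ) (ι : Type u) (A : Finset ι → Set C)
    (S : Finset ι) (c : ι), S.card = 1 → Ext1 (pg h₀ hK hunb hst hCm hs hCc) A S c →
      (∃ p : Set C, p.Finite ∧ (pg h₀ hK hunb hst hCm hs hCc).Atomic (A {c}) (p ∪ A ∅)) →
      Gd (pg h₀ hK hunb hst hCm hs hCc) τ A S c

/-- The limit lemma for pairs of models: maps of the closed traces which preserve the types of the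
tiny pieces. -/
def LLU (θ τ : Cardinal.{u}) : Prop :=
  ∀ (h₀ : BasePt K ℓ κf α θ) (hK : K.IsLS ℓ) (hunb : ∀ ν, ν < κf ν ∧ K.CategoricalIn (κf ν))
    (hst : Stab K ℓ α (H287.thr κf)) (C : Type u) [L.Structure C] (hCm : K.mem C)
    (hs : Sat K θ C) (hCc : #C = Order.succ θ) (P Q R : Set C),
      P ∈ (pg h₀ hK hunb hst hCm hs hCc).S → Q ∈ (pg h₀ hK hunb hst hCm hs hCc).S →
      R ∈ (pg h₀ hK hunb hst hCm hs hCc).S → P ⊆ Q → P ⊆ R →
      (pg h₀ hK hunb hst hCm hs hCc).Ind P Q R →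
      ∃ φ : Finset C → Set C, (∀ s, #(φ s) ≤ τ) ∧
        ∀ (I : Type u) [LinearOrder I] [WellFoundedLT I] [Nonempty I], #I ≤ τ →
          ∀ z : I → Set C, Monotone z → (∀ i, Clo φ (z i)) → (∀ i, #(z i) ≤ τ) → ∀ f : C → C,
          (∀ i, (pg h₀ hK hunb hst hCm hs hCc).LET τ f ((Q ∪ R) ∩ z i)) →
            (pg h₀ hK hunb hst hCm hs hCc).LET τ f ((Q ∪ R) ∩ ⋃ i, z i)

end Vale.Agent.P307.R2.H301
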