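import Vale.Agent.P307.R2.H301.Din.Dens
import Vale.Agent.P307.R2.H732.TxRow
import Vale.Agent.P307.R2.H319.Jr2Row
import Vale.Agent.P307.R2.H74.LLf

/-!
The open rows of the induction on the dimension, and the question from these rows.
-/

set_option linter.unusedSectionVars false

universe u

open FirstOrder Cardinal Set

namespace Vale.Agent.P307.R2.H301

open Vale.Agent.P307 Vale.Agent.P307.H304 Vale.Agent.P307.R2.H287 Vale.Agent.P307.R2.H1
  Vale.Agent.P307.R2.H971 Vale.Agent.P307.R2.H804 Vale.Agent.P307.R2.H533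
  Vale.Agent.P307.R2.H806 Vale.Agent.P307.R2.H718 Language.Structure Language.Substructure
  Vale.Agent.P307.R2.H650 Vale.Agent.P307.R2.H578 Vale.Agent.P307.R2.H27
open Vale.Agent.P307.R2.H541 Vale.Agent.P307.R2.H541.PG
open Vale.Agent.P307.R2.H68 (Clo exists_clo)

open scoped Classical

section props

variable {C : Type u}

/-- Joint reflection over the boundaries of the extensions of the systems of dimension `1, …, n` by
one direction. -/
def JRE (n : ℕ) (M : PG C) (τ : Cardinal.{u}) : Prop :=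
  ∀ (ι : Type u) (A : Finset ι → Set C) (S : Finset ι) (c : ι), S.Nonempty → S.card ≤ n →
    Ext1 M A S c → JRb M τ A S c

/-- Shrinking over the boundaries of the extensions of the systems of dimension `1, …, n` by one
direction, when the isolated types are dense. -/
def TrE (n : ℕ) (M : PG C) (τ : Cardinal.{u}) : Prop :=
  ∀ (ι : Type u) (A : Finset ι → Set C) (S : Finset ι) (c : ι), S.Nonempty → S.card ≤ n →
    Ext1 M A S c → Dens M (ibd A (insert c S)) → TrR M τ (ibd A (insert c S))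

variable {M : PG C} {τ : Cardinal.{u}}

theorem JR2K.jre (h : JR2K M τ) : JRE 1 M τ := fun ι A S c hS0 hS hE => by
  have := Finset.card_pos.2 hS0
  exact h ι A S c (by omega) hE

/-- Pairs. -/
theorem TrE.pair {n : ℕ} (h : TrE n M τ) (hn : 1 ≤ n) {P A B : Set C} (hP : P ∈ M.S)
    (hA : A ∈ M.S) (hB : B ∈ M.S) (hPA : P ⊆ A) (hPB : P ⊆ B) (hI : M.Ind P A B)
    (hD : Dens M (A ∪ B)) : TrR M τ (A ∪ B) := by
  obtain ⟨ι, A', S, c, hS, hE, hA0, hAc, hAS⟩ := exists_ext_pair hP hA hB hPA hPB hI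
  have h1 := h ι A' S c (Finset.card_pos.1 (by omega)) (by omega) hE
  rw [ibd_one hE hS, hAc, hAS] at h1
  exact h1 hD

/-- When the atomic tops exist. -/
theorem TrE.gd {n : ℕ} (h : TrE n M τ) (hJ : JRE n M τ) (hMd : MdK n M) : GdWK n M τ :=
  fun ι A S c hS0 hS hE => ⟨hJ ι A S c hS0 hS hE, h ι A S c hS0 hS hE (by
    obtain ⟨N, hN⟩ := hMd ι S.card hS A S c rfl hE
    exact Dens.of_atomic hN)⟩

end props

section

variable {L : Language.{u, u}} {K : AEC L} {ℓ : Cardinal.{u}}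
  {κf α : Cardinal.{u} → Cardinal.{u}}

/-- **Pairs of models one of which is generated by one point.** -/
theorem evM_pt1W (hF : Frame K ℓ κf α) (hG : EvL K ℓ κf α fun _ M τ => TrE 1 M τ) :
    EvM K ℓ κf α fun _ M => Pt1 M := by
  refine evM_of (evM_chn.and evM_tm1) (((evL_tiny hF).and H319.evL_jr2).and hG)
    fun θ h₀ hK hunb hst C _ hCm hs hCc hΦ hΨ => ?_
  intro P hP Q hQ hPQ c N hI hN
  have hPN : P ⊆ N := subset_union_right.trans hN.sub
  obtain ⟨ι, A, S, c', hS, hE, hA0, hAc, hAS⟩ := exists_ext_pair hP hN.mem hQ hPN hPQ (hN.dom hI)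
  have hS0 : S.Nonempty := Finset.card_pos.1 (by omega)
  have hat : (pg h₀ hK hunb hst hCm hs hCc).Atomic (A {c'}) ({c} ∪ A ∅) := by
    rw [hAc, hA0]
    exact hN
  obtain ⟨N', hN'⟩ := exists_atomic_ofD h₀ hK hunb hst hCm hs hCc hE hS0
    (hΦ.2 ι A S c' hS0 hS.le hE) fun σ hσ => by
      obtain ⟨τ, h2, hτ, hτθ, h3, ⟨h4, h5⟩, h6⟩ := hΨ σ hσ
      refine ⟨τ, h2, hτ, hτθ, tmAt_of' hK hunb hst hτ (fun h₀ hK hunb hst C _ hCm hs hCc =>
        (h3 h₀ hK hunb hst C hCm hs hCc).2) hS0 hS.le, h5 ι A S c' hS hE, fun u hu h => ?_, ?_⟩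
      · exact h6 ι A u c' h ((Finset.card_le_card hu).trans hS.le) (hE.sub hu)
      · exact lim_point h₀ hK hunb hst hCm hs hCc hτ hτθ (chnAt_of' hK hunb hst hτ
          fun h₀ hK hunb hst C _ hCm hs hCc => (h3 h₀ hK hunb hst C hCm hs hCc).1)
          (finite_singleton c) hat fun E hE' hEc => h4 (A ∅) (by rw [hA0]; exact hP) _ _
            (finite_singleton c) hat E hE' hEc
  rw [ibd_one hE hS, hAc, hAS, union_comm] at hN'
  exact ⟨N', hN'⟩

/-- **Pairs of models one of which is a prime chain.** -/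
theorem evM_topJW (hF : Frame K ℓ κf α) (hP1 : EvM K ℓ κf α fun _ M => Pt1 M)
    (hG : EvL K ℓ κf α fun _ M τ => TrE 1 M τ) : EvM K ℓ κf α fun _ M => TopJK M := by
  refine evM_of (evM_chn.and evM_tm1) (((evL_llj hF evM_chn hP1).and H319.evL_jr2).and hG)
    fun θ h₀ hK hunb hst C _ hCm hs hCc hΦ hΨ => ?_
  intro P hP N hN Q hQ hPN hPQ hI hPJ
  obtain ⟨ι, A, S, c', hS, hE, hA0, hAc, hAS⟩ := exists_ext_pair hP hN hQ hPN hPQ hI
  have hS0 : S.Nonempty := Finset.card_pos.1 (by omega)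
  obtain ⟨N', hN'⟩ := exists_atomic_ofD h₀ hK hunb hst hCm hs hCc hE hS0
    (hΦ.2 ι A S c' hS0 hS.le hE) fun σ hσ => by
      obtain ⟨τ, h2, hτ, hτθ, h3, ⟨h4, h5⟩, h6⟩ := hΨ σ hσ
      refine ⟨τ, h2, hτ, hτθ, tmAt_of' hK hunb hst hτ (fun h₀ hK hunb hst C _ hCm hs hCc =>
        (h3 h₀ hK hunb hst C hCm hs hCc).2) hS0 hS.le, h5 ι A S c' hS hE, fun u hu h => ?_, ?_⟩
      · exact h6 ι A u c' h ((Finset.card_le_card hu).trans hS.le) (hE.sub hu)
      · exact lim_pair h₀ hK hunb hst hCm hs hCc hE hS0 hτ hτθ (chnAt_of' hK hunb hst hτ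
          fun h₀ hK hunb hst C _ hCm hs hCc => (h3 h₀ hK hunb hst C hCm hs hCc).1)
          (by
            rw [hAc, hAS]
            exact h4 P hP N hN Q hQ hPN hPQ hI hPJ)
  rw [ibd_one hE hS, hAc, hAS] at hN'
  exact ⟨N', hN'⟩

/-- The closed traces of the pairs one of which is a prime chain. -/
theorem evL_gdJ (hJ : EvM K ℓ κf α fun _ M => TopJK M) (hG : EvL K ℓ κf α fun _ M τ => TrE 1 M τ) :
    EvL K ℓ κf α fun _ M τ => GdJK M τ := by
  refine ((hJ.evL.and H319.evL_jr2).and hG).imp fun C M τ h ι A S c hS hE hPJ => ?_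
  obtain ⟨⟨h1, h2⟩, h3⟩ := h
  refine ⟨h2 ι A S c hS hE, h3 ι A S c (Finset.card_pos.1 (by omega)) hS.le hE ?_⟩
  obtain ⟨N, hN⟩ := h1 (A ∅) (hE.sys.mem (Finset.empty_subset _)) (A {c}) hE.memc (A S)
    (hE.sys.mem (Finset.Subset.refl S)) hE.base
    (hE.sys.mono (Finset.Subset.refl S) (Finset.empty_subset _)) hE.ind hPJ
  rw [ibd_one hE hS]
  exact Dens.of_atomic hN

/-- **Arbitrary directions.** -/
theorem evM_mdW {k : ℕ} (hT : EvM K ℓ κf α fun _ M => H732.TXK ℓ (k + 2) M)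
    (hL : EvL K ℓ κf α fun _ M τ => LLK M τ) (hJ : EvL K ℓ κf α fun _ M τ => JRE (k + 1) M τ)
    (hG : EvL K ℓ κf α fun _ M τ => TrE (k + 1) M τ) :
    EvM K ℓ κf α fun _ M => MdK (k + 1) M := by
  have hT' : EvM K ℓ κf α fun _ M => TmK (k + 1) M := by
    obtain ⟨r, h⟩ := hT
    exact ⟨r, fun θ hθ h₀ hK hunb hst C _ hCm hs hCc =>
      ((h θ hθ h₀ hK hunb hst C hCm hs hCc).tmLK (pg_calc h₀ hK hunb hst hCm hs hCc)).tmK
        fun σ hσ => tH_lt h₀ hst hσ⟩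
  refine evM_of (evM_chn.and hT') ((hL.and hJ).and hG)
    fun θ h₀ hK hunb hst C _ hCm hs hCc hΦ hΨ => ?_
  intro ι j hj A S c hS hE
  rcases Nat.eq_zero_or_pos j with rfl | hj0
  · exact md_zero _ A S c hS hE
  have hS0 : S.Nonempty := Finset.card_pos.1 (by omega)
  have hSk : S.card ≤ k + 1 := hS.trans_le hj
  refine exists_atomic_ofD h₀ hK hunb hst hCm hs hCc hE hS0 (hΦ.2 ι A S c hS0 hSk hE)
    fun σ hσ => ?_
  obtain ⟨τ, h2, hτ, hτθ, h3, ⟨h4, h5⟩, h6⟩ := hΨ σ hσ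
  refine ⟨τ, h2, hτ, hτθ, tmAt_of' hK hunb hst hτ (fun h₀ hK hunb hst C _ hCm hs hCc =>
    (h3 h₀ hK hunb hst C hCm hs hCc).2) hS0 hSk, h5 ι A S c hS0 hSk hE, fun u hu hu0 =>
      h6 ι A u c hu0 ((Finset.card_le_card hu).trans hSk) (hE.sub hu), ?_⟩
  exact lim_pair h₀ hK hunb hst hCm hs hCc hE hS0 hτ hτθ (chnAt_of' hK hunb hst hτ
    fun h₀ hK hunb hst C _ hCm hs hCc => (h3 h₀ hK hunb hst C hCm hs hCc).1)
    (h4 (A ∅) (hE.sys.mem (Finset.empty_subset _)) (A {c}) hE.memc (A S)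
      (hE.sys.mem (Finset.Subset.refl S)) hE.base
      (hE.sys.mono (Finset.Subset.refl S) (Finset.empty_subset _)) hE.ind)

variable (K ℓ κf α) in
/-- What is known after the step `k` of the induction. -/
structure KnW (k : ℕ) : Prop where
  chn : EvM K ℓ κf α fun _ M => Chn M
  free : EvM K ℓ κf α fun _ M => FreeM M
  fp : EvM K ℓ κf α fun _ M => FP M
  pt1 : EvM K ℓ κf α fun _ M => Pt1 M
  topJ : EvM K ℓ κf α fun _ M => TopJK M
  ll : EvL K ℓ κf α fun _ M τ => LLK M τ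
  md : EvM K ℓ κf α fun _ M => MdK k M
  tx : EvM K ℓ κf α fun _ M => H732.TXK ℓ (k + 2) M
  gd : EvL K ℓ κf α fun _ M τ => GdWK k M τ

variable (K ℓ κf α) in
/-- The open rows. -/
structure RowsW : Prop where
  /-- Shrinking for pairs. -/
  tr0 : EvL K ℓ κf α fun _ M τ => TrE 1 M τ
  /-- Shrinking for the atomic tops. -/
  sh : ∀ k, 1 ≤ k → KnW K ℓ κf α k → (EvL K ℓ κf α fun _ M τ => ShEK (k - 1) M τ) →
    EvL K ℓ κf α fun _ M τ => ShEK k M τ
  /-- Joint reflection. -/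
  jr : ∀ k, 1 ≤ k → KnW K ℓ κf α k → (EvL K ℓ κf α fun _ M τ => ShEK k M τ) →
    EvL K ℓ κf α fun _ M τ => JRE (k + 1) M τ
  /-- Shrinking. -/
  tr : ∀ k, 1 ≤ k → KnW K ℓ κf α k → (EvL K ℓ κf α fun _ M τ => ShEK k M τ) →
    (EvL K ℓ κf α fun _ M τ => JRE (k + 1) M τ) → EvL K ℓ κf α fun _ M τ => TrE (k + 1) M τ

/-- **The induction on the dimension.** -/
theorem RowsW.kn (hF : Frame K ℓ κf α) (h : RowsW K ℓ κf α) (k : ℕ) (hk : 1 ≤ k) :
    KnW K ℓ κf α k ∧ EvL K ℓ κf α fun _ M τ => ShEK (k - 1) M τ := by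
  have hpt := evM_pt1W hF h.tr0
  have htj := evM_topJW hF hpt h.tr0
  have hfp := evM_fp hF htj
  have hll := H74.evL_ll hF evM_chn hpt htj (evL_gdJ htj h.tr0)
  induction k, hk using Nat.le_induction with
  | base =>
    have h0 : EvM K ℓ κf α fun _ M => MdK 0 M := ⟨0, fun θ _ => fun h₀ hK hunb hst C _ hCm hs hCc
      ι j hj => tops_zero θ h₀ hK hunb hst C hCm hs hCc ι j hj⟩
    have h1 := H732.evM_txk hF evM_chn htj 0 h0
    have h2 : EvL K ℓ κf α fun _ M τ => JRE 1 M τ := H319.evL_jr2.imp fun _ _ _ h => h.jre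
    have h3 := evM_mdW h1 hll h2 h.tr0
    exact ⟨⟨evM_chn, evM_free hF, hfp, hpt, htj, hll, h3, H732.evM_txk hF evM_chn htj 1 h3,
      ((h3.evL.and h2).and h.tr0).imp fun _ _ _ h => h.2.gd h.1.2 h.1.1⟩,
      EvL.of_all (r := 0) fun _ _ _ _ _ _ _ _ _ _ _ _ _ _ => shEK_zero⟩
  | succ k hk ih =>
    have h1 := h.sh k hk ih.1 ih.2
    have h2 := h.jr k hk ih.1 h1
    have h3 := h.tr k hk ih.1 h1 h2
    have h4 := evM_mdW ih.1.tx hll h2 h3
    exact ⟨⟨evM_chn, evM_free hF, hfp, hpt, htj, hll, h4, H732.evM_txk hF evM_chn htj (k + 1) h4,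
      ((h4.evL.and h2).and h3).imp fun _ _ _ h => h.2.gd h.1.2 h.1.1⟩, h1⟩

theorem RowsW.tops (hF : Frame K ℓ κf α) (h : RowsW K ℓ κf α) (k : ℕ) :
    EvM K ℓ κf α fun _ M => MdK k M := by
  rcases Nat.eq_zero_or_pos k with rfl | hk
  · exact ⟨0, fun θ _ => fun h₀ hK hunb hst C _ hCm hs hCc ι j hj =>
      tops_zero θ h₀ hK hunb hst C hCm hs hCc ι j hj⟩
  · exact (h.kn hF k hk).1.md

end

/-- **The question** from the open rows. -/
theorem q1_of_rowsW (H : ∀ (L : Language.{u, u}) (K : AEC L) (ℓ : Cardinal.{u})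
      (κf α : Cardinal.{u} → Cardinal.{u}), Frame K ℓ κf α → RowsW K ℓ κf α) (l : Cardinal.{u}) :
    ∃ μ : Cardinal.{u}, l ≤ μ ∧ ∀ (L : Language.{u, u}) (K : AEC L), K.LS ≤ l →
      ∀ κ, μ ≤ κ → K.CategoricalIn κ → ∀ κ', μ ≤ κ' → K.CategoricalIn κ' :=
  q1_of_tops (fun L K ℓ κf α hF k => (H L K ℓ κf α hF).tops hF k) l

end Vale.Agent.P307.R2.H301
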