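import Vale.Agent.P307.R2.H914.JreRow
import Vale.Agent.P307.R2.H74.RowW

/-!
The open rows of the induction on the dimension: shrinking of the isolating sets. The question from
these rows.
-/

set_option linter.unusedSectionVars false

universe u

open FirstOrder Cardinal Set

namespace Vale.Agent.P307.R2.H301

open Vale.Agent.P307 Vale.Agent.P307.H304 Vale.Agent.P307.R2.H287 Vale.Agent.P307.R2.H1
  Vale.Agent.P307.R2.H971 Vale.Agent.P307.R2.H804 Vale.Agent.P307.R2.H533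
  Vale.Agent.P307.R2.H806 Vale.Agent.P307.R2.H718 Language.Structure Language.Substructure
  Vale.Agent.P307.R2.H650 Vale.Agent.P307.R2.H578 Vale.Agent.P307.R2.H27
open Vale.Agent.P307.R2.H541 Vale.Agent.P307.R2.H541.PG
open Vale.Agent.P307.R2.H68 (Clo exists_clo)

open scoped Classical

section props

variable {C : Type u}

/-- Shrinking for the pairs whose first member is as in `Θ`, when the isolated types are dense. -/
def TrΘ (Θ : Set C → Set C → Prop) (M : PG C) (τ : Cardinal.{u}) : Prop :=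
  ∀ (ι : Type u) (A : Finset ι → Set C) (S : Finset ι) (c : ι), S.card = 1 →
    Ext1 M A S c → Θ (A ∅) (A {c}) → Dens M (ibd A (insert c S)) → TrR M τ (ibd A (insert c S))

/-- Shrinking for the pairs whose first member is generated by finitely many points. -/
def TrPE (M : PG C) (τ : Cardinal.{u}) : Prop :=
  TrΘ (fun P A => ∃ p : Set C, p.Finite ∧ M.Atomic A (p ∪ P)) M τ

/-- Shrinking for the pairs whose first member is a prime chain. -/
def TrJE (M : PG C) (τ : Cardinal.{u}) : Prop := TrΘ (PJ M) M τ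

variable {M : PG C} {τ : Cardinal.{u}}

theorem eq_of_sub_one {ι : Type u} {S u : Finset ι} (hS : S.card = 1) (hu : u ⊆ S)
    (hu0 : u.Nonempty) : u = S := by
  obtain ⟨a, rfl⟩ := Finset.card_eq_one.1 hS
  rcases Finset.subset_singleton_iff.1 hu with rfl | h
  · exact absurd hu0 Finset.not_nonempty_empty
  · exact h

end props

section

variable {L : Language.{u, u}} {K : AEC L} {ℓ : Cardinal.{u}}
  {κf α : Cardinal.{u} → Cardinal.{u}}

/-- **Pairs of models one of which is generated by one point.** -/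
theorem evM_pt1X (hF : Frame K ℓ κf α) (hG : EvL K ℓ κf α fun _ M τ => TrPE M τ) :
    EvM K ℓ κf α fun _ M => Pt1 M := by
  refine evM_of (evM_chn.and evM_tm1) (((evL_tiny hF).and H319.evL_jr2).and hG)
    fun θ h₀ hK hunb hst C _ hCm hs hCc hΦ hΨ => ?_
  intro P hP Q hQ hPQ c N hI hN
  have hPN : P ⊆ N := subset_union_right.trans hN.sub
  obtain ⟨ι, A, S, c', hS, hE, hA0, hAc, hAS⟩ := exists_ext_pair hP hN.mem hQ hPN hPQ (hN.dom hI)
  have hS0 : S.Nonempty := Finset.card_pos.1 (by omega)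
  have hat : (pg h₀ hK hunb hst hCm hs hCc).Atomic (A {c'}) ({c} ∪ A ∅) := by
    rw [hAc, hA0]
    exact hN
  obtain ⟨N', hN'⟩ := exists_atomic_ofD h₀ hK hunb hst hCm hs hCc hE hS0
    (hΦ.2 ι A S c' hS0 hS.le hE) fun σ hσ => by
      obtain ⟨τ, h2, hτ, hτθ, h3, ⟨h4, h5⟩, h6⟩ := hΨ σ hσ
      refine ⟨τ, h2, hτ, hτθ, tmAt_of' hK hunb hst hτ (fun h₀ hK hunb hst C _ hCm hs hCc =>
        (h3 h₀ hK hunb hst C hCm hs hCc).2) hS0 hS.le, h5 ι A S c' hS hE, fun u hu h => ?_, ?_⟩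
      · obtain rfl := eq_of_sub_one hS hu h
        exact h6 ι A u c' hS hE ⟨{c}, finite_singleton c, hat⟩
      · exact lim_point h₀ hK hunb hst hCm hs hCc hτ hτθ (chnAt_of' hK hunb hst hτ
          fun h₀ hK hunb hst C _ hCm hs hCc => (h3 h₀ hK hunb hst C hCm hs hCc).1)
          (finite_singleton c) hat fun E hE' hEc => h4 (A ∅) (by rw [hA0]; exact hP) _ _
            (finite_singleton c) hat E hE' hEc
  rw [ibd_one hE hS, hAc, hAS, union_comm] at hN'
  exact ⟨N', hN'⟩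

/-- **Pairs of models one of which is a prime chain.** -/
theorem evM_topJX (hF : Frame K ℓ κf α) (hP1 : EvM K ℓ κf α fun _ M => Pt1 M)
    (hG : EvL K ℓ κf α fun _ M τ => TrJE M τ) : EvM K ℓ κf α fun _ M => TopJK M := by
  refine evM_of (evM_chn.and evM_tm1) (((evL_llj hF evM_chn hP1).and H319.evL_jr2).and hG)
    fun θ h₀ hK hunb hst C _ hCm hs hCc hΦ hΨ => ?_
  intro P hP N hN Q hQ hPN hPQ hI hPJ
  obtain ⟨ι, A, S, c', hS, hE, hA0, hAc, hAS⟩ := exists_ext_pair hP hN hQ hPN hPQ hI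
  have hS0 : S.Nonempty := Finset.card_pos.1 (by omega)
  obtain ⟨N', hN'⟩ := exists_atomic_ofD h₀ hK hunb hst hCm hs hCc hE hS0
    (hΦ.2 ι A S c' hS0 hS.le hE) fun σ hσ => by
      obtain ⟨τ, h2, hτ, hτθ, h3, ⟨h4, h5⟩, h6⟩ := hΨ σ hσ
      refine ⟨τ, h2, hτ, hτθ, tmAt_of' hK hunb hst hτ (fun h₀ hK hunb hst C _ hCm hs hCc =>
        (h3 h₀ hK hunb hst C hCm hs hCc).2) hS0 hS.le, h5 ι A S c' hS hE, fun u hu h => ?_, ?_⟩
      · obtain rfl := eq_of_sub_one hS hu h
        refine h6 ι A u c' hS hE ?_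
        rw [hA0, hAc]
        exact hPJ
      · exact lim_pair h₀ hK hunb hst hCm hs hCc hE hS0 hτ hτθ (chnAt_of' hK hunb hst hτ
          fun h₀ hK hunb hst C _ hCm hs hCc => (h3 h₀ hK hunb hst C hCm hs hCc).1)
          (by
            rw [hAc, hAS]
            exact h4 P hP N hN Q hQ hPN hPQ hI hPJ)
  rw [ibd_one hE hS, hAc, hAS] at hN'
  exact ⟨N', hN'⟩

/-- The closed traces of the pairs one of which is a prime chain. -/
theorem evL_gdJX (hJ : EvM K ℓ κf α fun _ M => TopJK M) (hG : EvL K ℓ κf α fun _ M τ => TrJE M τ) :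
    EvL K ℓ κf α fun _ M τ => GdJK M τ := by
  refine ((hJ.evL.and H319.evL_jr2).and hG).imp fun C M τ h ι A S c hS hE hPJ => ?_
  obtain ⟨⟨h1, h2⟩, h3⟩ := h
  refine ⟨h2 ι A S c hS hE, h3 ι A S c hS hE hPJ ?_⟩
  obtain ⟨N, hN⟩ := h1 (A ∅) (hE.sys.mem (Finset.empty_subset _)) (A {c}) hE.memc (A S)
    (hE.sys.mem (Finset.Subset.refl S)) hE.base
    (hE.sys.mono (Finset.Subset.refl S) (Finset.empty_subset _)) hE.ind hPJ
  rw [ibd_one hE hS]
  exact Dens.of_atomic hN

variable (K ℓ κf α) in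
/-- The open rows: shrinking. -/
structure RowsX : Prop where
  /-- Shrinking, for pairs one of which is generated by finitely many points. -/
  trp : EvL K ℓ κf α fun _ M τ => TrPE M τ
  /-- Shrinking, for pairs one of which is a prime chain. -/
  trj : (EvM K ℓ κf α fun _ M => Pt1 M) → EvL K ℓ κf α fun _ M τ => TrJE M τ
  /-- Shrinking, for all the boundaries. -/
  tr : ∀ k, KnW K ℓ κf α k → (EvL K ℓ κf α fun _ M τ => ShEK k M τ) →
    (EvL K ℓ κf α fun _ M τ => JRE (k + 1) M τ) → EvL K ℓ κf α fun _ M τ => TrE (k + 1) M τ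

/-- **The induction on the dimension.** -/
theorem RowsX.kn (hF : Frame K ℓ κf α) (h : RowsX K ℓ κf α) (k : ℕ) : KnW K ℓ κf α k := by
  have hpt := evM_pt1X hF h.trp
  have htr := h.trj hpt
  have htj := evM_topJX hF hpt htr
  have hfp := evM_fp hF htj
  have hll := H74.evL_ll hF evM_chn hpt htj (evL_gdJX htj htr)
  induction k with
  | zero =>
    have h0 : EvM K ℓ κf α fun _ M => MdK 0 M := ⟨0, fun θ _ => fun h₀ hK hunb hst C _ hCm hs hCc
      ι j hj => tops_zero θ h₀ hK hunb hst C hCm hs hCc ι j hj⟩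
    refine ⟨evM_chn, evM_free hF, hfp, hpt, htj, hll, h0, H732.evM_txk hF evM_chn htj 0 h0,
      EvL.of_all (r := 0) fun _ _ _ _ _ _ _ _ _ _ _ _ _ _ => ?_⟩
    intro ι A S c hS0 hS
    have := Finset.card_pos.2 hS0
    omega
  | succ k ih =>
    have h1 := H74.evL_sh ih
    have h2 := H914.evL_jre ih h1
    have h3 := h.tr k ih h1 h2
    have h4 := evM_mdW ih.tx hll h2 h3
    exact ⟨evM_chn, evM_free hF, hfp, hpt, htj, hll, h4, H732.evM_txk hF evM_chn htj (k + 1) h4,
      ((h4.evL.and h2).and h3).imp fun _ _ _ h => h.2.gd h.1.2 h.1.1⟩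

end

/-- **The question** from the open rows. -/
theorem q1_of_rowsX (H : ∀ (L : Language.{u, u}) (K : AEC L) (ℓ : Cardinal.{u})
      (κf α : Cardinal.{u} → Cardinal.{u}), Frame K ℓ κf α → RowsX K ℓ κf α) (l : Cardinal.{u}) :
    ∃ μ : Cardinal.{u}, l ≤ μ ∧ ∀ (L : Language.{u, u}) (K : AEC L), K.LS ≤ l →
      ∀ κ, μ ≤ κ → K.CategoricalIn κ → ∀ κ', μ ≤ κ' → K.CategoricalIn κ' :=
  q1_of_tops (fun L K ℓ κf α hF k => ((H L K ℓ κf α hF).kn hF k).md) l

end Vale.Agent.P307.R2.H301
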