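import Vale.Agent.P307.R2.H301.Din.Defs
import Vale.Agent.P307.R2.H533.GDI

/-!
The induction on the dimension.
-/

set_option linter.unusedSectionVars false

universe u

open FirstOrder Cardinal Set

namespace Vale.Agent.P307.R2.H301

open Vale.Agent.P307 Vale.Agent.P307.H304 Vale.Agent.P307.R2.H287 Vale.Agent.P307.R2.H1
  Vale.Agent.P307.R2.H971 Vale.Agent.P307.R2.H804 Vale.Agent.P307.R2.H533
  Vale.Agent.P307.R2.H806 Vale.Agent.P307.R2.H718 Language.Structure Language.Substructure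
open Vale.Agent.P307.R2.H541 Vale.Agent.P307.R2.H541.PG
open Vale.Agent.P307.R2.H68 (Clo exists_clo)

open scoped Classical

variable {L : Language.{u, u}} {K : AEC L} {ℓ θ τ : Cardinal.{u}}
  {κf α : Cardinal.{u} → Cardinal.{u}} {C : Type u} [L.Structure C]

/-- The common closure for a finite family. -/
theorem exists_clo_fin {τ : Cardinal.{u}} (hτ : ℵ₀ ≤ τ) {J : Type u} (F : Finset J)
    {P : J → Set C → Prop} (h : ∀ t ∈ F, ∃ φ : Finset C → Set C, (∀ s, #(φ s) ≤ τ) ∧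
      ∀ H, Clo φ H → #H ≤ τ → P t H) :
    ∃ φ : Finset C → Set C, (∀ s, #(φ s) ≤ τ) ∧ ∀ H, Clo φ H → #H ≤ τ → ∀ t ∈ F, P t H := by
  induction F using Finset.induction_on with
  | empty => exact ⟨fun _ => ∅, fun s => by simp, fun H _ _ t ht => absurd ht (by simp)⟩
  | insert a F _ ih =>
    obtain ⟨φ, h1, h2⟩ := ih fun t ht => h t (Finset.mem_insert_of_mem ht)
    obtain ⟨ψ, h3, h4⟩ := h a (Finset.mem_insert_self a F)
    refine ⟨fun s => φ s ∪ ψ s, fun s => (mk_union_le _ _).trans (add_le_of_le hτ (h1 s) (h3 s)),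
      fun H hH hHc t ht => ?_⟩
    rcases Finset.mem_insert.1 ht with rfl | ht
    · exact h4 H (clo_right hH) hHc
    · exact h2 H (clo_left hH) hHc t ht

section

variable (h₀ : BasePt K ℓ κf α θ) (hK : K.IsLS ℓ)
  (hunb : ∀ ν, ν < κf ν ∧ K.CategoricalIn (κf ν)) (hst : Stab K ℓ α (H287.thr κf))
  (hCm : K.mem C) (hs : Sat K θ C) (hCc : #C = Order.succ θ)

/-- `pg_exists_top` with the shrinking for bounded filtrations only. -/
theorem pg_exists_top' {X : Set C} (hX : #X = θ)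
    (hTm : (pg h₀ hK hunb hst hCm hs hCc).Tm X)
    (hLv : ∀ σ < θ, ∃ τ, σ < τ ∧ ∃ (hτ : BasePt K ℓ κf α τ) (hτθ : τ < θ),
      (∃ φ, TrX (pgLv h₀ hK hunb hst hCm hs hCc hτ hτθ) X φ) ∧
      TrB (pg h₀ hK hunb hst hCm hs hCc) τ X) :
    ∃ N, (pg h₀ hK hunb hst hCm hs hCc).Atomic N X :=
  exists_top' (hK.1.trans_lt h₀.pt.lt) hX (pg_T_inv h₀ hK hunb hst hCm hs hCc)
    (pg_small_sub h₀ hK hunb hst hCm hs hCc) (pg_union_card h₀ hK hunb hst hCm hs hCc)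
    (pg_few' h₀ hK hunb hst hCm hs hCc) hTm fun σ hσ => by
      obtain ⟨τ, h1, hτ, hτθ, h2, h3⟩ := hLv σ hσ
      exact ⟨τ, h1, pgLv h₀ hK hunb hst hCm hs hCc hτ hτθ, h2, h3⟩

variable {ι : Type u} {A : Finset ι → Set C} {S : Finset ι} {c : ι}

theorem mk_ibd (hE : Ext1 (pg h₀ hK hunb hst hCm hs hCc) A S c) :
    #(ibd A (insert c S)) = θ := by
  refine le_antisymm ?_ ?_
  · rw [← iun_ssubsets]
    exact card_iun (M := pg h₀ hK hunb hst hCm hs hCc) fun v hv =>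
      ((pg h₀ hK hunb hst hCm hs hCc).S_card (hE.fam.mem v hv)).le
  · have h1 := (pg h₀ hK hunb hst hCm hs hCc).S_card (hE.sys.mem (Finset.Subset.refl S))
    change #(A S) = θ at h1
    rw [← h1]
    exact mk_le_mk_of_subset hE.bd_sub

/-- The closure for the traces of the faces. -/
theorem exists_clo_str (hE : Ext1 (pg h₀ hK hunb hst hCm hs hCc) A S c)
    (hτ : BasePt K ℓ κf α τ) (hτθ : τ < θ) :
    ∃ φ : Finset C → Set C, (∀ s, #(φ s) ≤ τ) ∧ ∀ H, Clo φ H → #H ≤ τ →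
      ∀ t ∈ (insert c S).ssubsets, A t ∩ H ∈ Sm K τ C := by
  refine exists_clo_fin (aleph0_le_pt hτ hK) _ fun t ht => ?_
  have h1 := hE.fam.mem t ht
  obtain ⟨φ, h2, h3⟩ := exists_clo_pack h₀ hK hunb hst hCm hs hCc hτ hτθ h1
    (R := fun _ => A t) fun _ => by
      obtain ⟨D, h4, -, h5⟩ := h1
      exact ⟨D, h4, h5⟩
  exact ⟨φ, h2, fun H hH hHc => (h3 H ⟨hH, hHc⟩).1⟩

/-- The closure for the tiny isolating sets of the pieces of the atomic faces. -/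
theorem exists_clo_tiny (hE : Ext1 (pg h₀ hK hunb hst hCm hs hCc) A S c)
    (hτ : BasePt K ℓ κf α τ) (hτθ : τ < θ)
    (hG : ∀ u, u ⊂ S → u.Nonempty →
      TrB (pg h₀ hK hunb hst hCm hs hCc) τ (ibd A (insert c u))) :
    ∃ φ : Finset C → Set C, (∀ s, #(φ s) ≤ τ) ∧ ∀ H, Clo φ H → #H ≤ τ →
      ∀ u ∈ S.ssubsets, u.Nonempty → ∀ E ⊆ A (insert c u) ∩ H, #E < τ →
        ∃ B ⊆ ibd A (insert c u), #B < τ ∧
          (pg h₀ hK hunb hst hCm hs hCc).Isol B (ibd A (insert c u)) E := by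
  refine exists_clo_fin (aleph0_le_pt hτ hK) _ fun u hu => ?_
  by_cases hu0 : u.Nonempty
  · have hat := hE.atomic u (Finset.mem_ssubsets.1 hu) hu0
    obtain ⟨R, h1, h2, h3⟩ := PG.exists_filtration hat.mem
    have hRN : ∀ n, R n ⊆ A (insert c u) := fun n => by
      rw [← h3]
      exact subset_iUnion R n
    obtain ⟨ψ, hψ⟩ := hG u (Finset.mem_ssubsets.1 hu) hu0 R h1 h2 (by rw [h3]; exact hat.mem)
      (by rw [h3]; exact hat.sub) fun n => hat.iso (R n) (hRN n)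
        ((pg h₀ hK hunb hst hCm hs hCc).T_card (h2 n))
    refine ⟨ψ, hψ.card, fun H hH hHc _ E hE' hEc => ?_⟩
    obtain ⟨B, h4, h5, h6⟩ := hψ.shrink H hH hHc E (by rwa [h3]) hEc (hat.iso E
      (hE'.trans inter_subset_left) (hEc.trans hτθ))
    exact ⟨B, h4.trans inter_subset_left, h5, h6⟩
  · exact ⟨fun _ => ∅, fun s => by simp, fun H _ _ h => absurd h hu0⟩

/-- The common closure for the good closed sets. -/
theorem exists_clo_good (hE : Ext1 (pg h₀ hK hunb hst hCm hs hCc) A S c) (hS : S.Nonempty)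
    (hτ : BasePt K ℓ κf α τ) (hτθ : τ < θ)
    (hG : ∀ u, u ⊂ S → u.Nonempty →
      TrB (pg h₀ hK hunb hst hCm hs hCc) τ (ibd A (insert c u)))
    (hJ : ∃ φ : Finset C → Set C, (∀ s, #(φ s) ≤ τ) ∧ ∀ H, Clo φ H → #H ≤ τ →
      (pg h₀ hK hunb hst hCm hs hCc).JR τ A (insert c S).ssubsets H (ibd A (insert c S) ∩ H)) :
    ∃ φ : Finset C → Set C, (∀ s, #(φ s) ≤ τ) ∧ ∀ ψ : Finset C → Set C, (∀ s, φ s ⊆ ψ s) →
      Good1 (pg h₀ hK hunb hst hCm hs hCc) τ A S c {H | Clo ψ H ∧ #H ≤ τ} ∧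
      StrZ K τ A S c {H | Clo ψ H ∧ #H ≤ τ} := by
  obtain ⟨φ₁, h1, h2⟩ := exists_clo_str h₀ hK hunb hst hCm hs hCc hE hτ hτθ
  obtain ⟨φ₂, h3, h4⟩ := exists_clo_tiny h₀ hK hunb hst hCm hs hCc hE hτ hτθ hG
  obtain ⟨φ₃, h5, h6⟩ := hJ
  have hτ0 := aleph0_le_pt hτ hK
  have hun : ∀ {A B : Set C}, #A ≤ τ → #B ≤ τ → #(A ∪ B : Set C) ≤ τ := fun ha hb =>
    (mk_union_le _ _).trans (add_le_of_le hτ0 ha hb)
  refine ⟨fun s => (φ₁ s ∪ φ₂ s) ∪ φ₃ s, fun s => hun (hun (h1 s) (h3 s)) (h5 s),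
    fun ψ hψ => ⟨⟨hE, hS, ?_, ?_⟩, ?_⟩⟩
  · rintro H ⟨hH, hHc⟩
    exact h6 H (clo_right (hH.mono hψ)) hHc
  · rintro H ⟨hH, hHc⟩ u hu hu0 E hE' hEc
    exact h4 H (clo_right (clo_left (hH.mono hψ))) hHc u (Finset.mem_ssubsets.2 hu) hu0 E hE' hEc
  · rintro H ⟨hH, hHc⟩ t ht
    exact h2 H (clo_left (clo_left (hH.mono hψ))) hHc t (Finset.mem_ssubsets.2 ht)

end

/-- The chain conditions in the saturated strong submodels. -/
theorem chnAt_of (hK : K.IsLS ℓ) (hunb : ∀ ν, ν < κf ν ∧ K.CategoricalIn (κf ν))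
    (hst : Stab K ℓ α (H287.thr κf)) (hτ : BasePt K ℓ κf α τ) (h : ChnU K ℓ κf α τ) :
    ChnAt hK hunb hst hτ C := fun C' hC' hC'c hC's =>
  h hτ hK hunb hst C' (K.mem_of_le _ hC').1 hC's hC'c

theorem tmAt_of (hK : K.IsLS ℓ) (hunb : ∀ ν, ν < κf ν ∧ K.CategoricalIn (κf ν))
    (hst : Stab K ℓ α (H287.thr κf)) (hτ : BasePt K ℓ κf α τ) {k : ℕ} (h : TmU K ℓ κf α k τ)
    {ι : Type u} {S : Finset ι} {c : ι} (hS : S.Nonempty) (hSk : S.card ≤ k) :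
    TmAt hK hunb hst hτ C S c := fun C' hC' hC'c hC's A' hA' =>
  h hτ hK hunb hst C' (K.mem_of_le _ hC').1 hC's hC'c ι A' S c hS hSk hA'

/-- Tiny isolating sets in dimension one. -/
def Tiny1 (K : AEC L) (ℓ : Cardinal.{u}) (κf α : Cardinal.{u} → Cardinal.{u})
    (θ τ : Cardinal.{u}) : Prop :=
  ∀ (h₀ : BasePt K ℓ κf α θ) (hK : K.IsLS ℓ) (hunb : ∀ ν, ν < κf ν ∧ K.CategoricalIn (κf ν))
    (hst : Stab K ℓ α (H287.thr κf)) (C : Type u) [L.Structure C] (hCm : K.mem C)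
    (hs : Sat K θ C) (hCc : #C = Order.succ θ) (P N p : Set C),
      P ∈ (pg h₀ hK hunb hst hCm hs hCc).S → p.Finite →
      (pg h₀ hK hunb hst hCm hs hCc).Atomic N (p ∪ P) → ∀ E ⊆ N, #E < τ →
        ∃ B ⊆ p ∪ P, #B < τ ∧ (pg h₀ hK hunb hst hCm hs hCc).Isol B (p ∪ P) E

/-- **Pairs of models one of which is generated by finitely many points.** -/
theorem ev_pt (hC : Ev K ℓ κf α (ChnU K ℓ κf α)) (hT : Ev K ℓ κf α (TmU K ℓ κf α 1))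
    (h1 : Ev2 K ℓ κf α (Tiny1 K ℓ κf α)) (hG : Ev2 K ℓ κf α (GdP K ℓ κf α)) :
    Ev K ℓ κf α (PtU K ℓ κf α) := by
  obtain ⟨r₁, hC⟩ := hC
  obtain ⟨r₂, hT⟩ := hT
  obtain ⟨r₃, h1⟩ := h1
  obtain ⟨r₄, hG⟩ := hG
  let r := max (max r₁ r₂) (max r₃ r₄)
  have hr1 : r₁ ≤ r := (le_max_left _ _).trans (le_max_left _ _)
  have hr2 : r₂ ≤ r := (le_max_right _ _).trans (le_max_left _ _)
  have hr3 : r₃ ≤ r := (le_max_left _ _).trans (le_max_right _ _)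
  have hr4 : r₄ ≤ r := (le_max_right _ _).trans (le_max_right _ _)
  refine ⟨r + 1, fun θ hθ h₀ hK hunb hst C _ hCm hs hCc ι A S c hS hE hp => ?_⟩
  obtain ⟨p, hp, hat⟩ := hp
  have hθr := hθ.pred
  have hS0 : S.Nonempty := Finset.card_pos.1 (by omega)
  refine pg_exists_top' h₀ hK hunb hst hCm hs hCc (mk_ibd h₀ hK hunb hst hCm hs hCc hE)
    (hT θ (hθr.mono hr2) h₀ hK hunb hst C hCm hs hCc ι A S c hS0 hS.le hE) fun σ hσ => ?_
  obtain ⟨τ, hστ, hτθ, hτr⟩ := hθ.exists_btw hσ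
  have hτ := hτr.base
  obtain ⟨hJ, hB⟩ := hG θ τ hτθ (hθr.mono hr4) (hτr.mono hr4) h₀ hK hunb hst C hCm hs hCc ι A S c
    hS hE ⟨p, hp, hat⟩
  refine ⟨τ, hστ, hτ, hτθ, ?_, hB⟩
  have hu0 : ∀ u, u ⊂ S → ¬ u.Nonempty := by
    intro u hu h2
    have h3 := Finset.card_lt_card hu
    have h4 := Finset.card_pos.2 h2
    omega
  obtain ⟨φ, h2, h3⟩ := exists_clo_good h₀ hK hunb hst hCm hs hCc hE hS0 hτ hτθ
    (fun u hu h => absurd h (hu0 u hu)) hJ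
  have hτ0 := aleph0_le_pt hτ hK
  obtain ⟨h4, h5⟩ := h3 (fun s => φ s ∪ p) fun s => subset_union_left
  have hφ : ∀ s, #(φ s ∪ p : Set C) ≤ τ := fun s => (mk_union_le _ _).trans
    (add_le_of_le hτ0 (h2 s) ((lt_aleph0_iff_set_finite.2 hp).le.trans hτ0))
  have hpZ : ∀ z ∈ ({H | Clo (fun s => φ s ∪ p) H ∧ #H ≤ τ} : Set (Set C)), p ⊆ z := fun z hz =>
    subset_union_right.trans (hz.1 ∅ (by simp))
  refine ⟨fun s => φ s ∪ p, trX_of h₀ hK hunb hst hCm hs hCc hτ hτθ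
    (pgLv h₀ hK hunb hst hCm hs hCc hτ hτθ) rfl hφ h4 h5
    (tmAt_of hK hunb hst hτ (hT τ (hτr.mono hr2)) hS0 hS.le) ?_⟩
  intro I _ _ _ hI z hz hzc hzτ f hf
  refine pg_lim_point h₀ hK hunb hst hCm hs hCc hτ hτθ h4 (fun z hz => hz.2) h5
    (chnAt_of hK hunb hst hτ (hC τ (hτr.mono hr1))) hp hpZ hat (fun z _ E hE' hEc => ?_) hz
    (fun i => ⟨hzc i, hzτ i⟩) ?_ hf
  · exact h1 θ τ hτθ (hθr.mono hr3) (hτr.mono hr3) h₀ hK hunb hst C hCm hs hCc (A ∅) (A {c}) p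
      (hE.sys.mem (Finset.empty_subset _)) hp hat E (hE'.trans inter_subset_left) hEc
  · exact Zc.iUnion hτ0 hI z hz fun i => ⟨hzc i, hzτ i⟩

/-- **Arbitrary directions.** -/
theorem ev_tops {k : ℕ} (hC : Ev K ℓ κf α (ChnU K ℓ κf α))
    (hT : Ev K ℓ κf α (TmU K ℓ κf α (k + 1))) (hL : Ev2 K ℓ κf α (LLU K ℓ κf α))
    (hG : Ev2 K ℓ κf α (GdU K ℓ κf α (k + 1))) :
    Ev K ℓ κf α (Tops K ℓ κf α (k + 1)) := by
  obtain ⟨r₁, hC⟩ := hC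
  obtain ⟨r₂, hT⟩ := hT
  obtain ⟨r₃, hL⟩ := hL
  obtain ⟨r₄, hG⟩ := hG
  let r := max (max r₁ r₂) (max r₃ r₄)
  have hr1 : r₁ ≤ r := (le_max_left _ _).trans (le_max_left _ _)
  have hr2 : r₂ ≤ r := (le_max_right _ _).trans (le_max_left _ _)
  have hr3 : r₃ ≤ r := (le_max_left _ _).trans (le_max_right _ _)
  have hr4 : r₄ ≤ r := (le_max_right _ _).trans (le_max_right _ _)
  refine ⟨r + 1, fun θ hθ h₀ hK hunb hst C _ hCm hs hCc ι j hj A S c hS hE => ?_⟩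
  rcases Nat.eq_zero_or_pos j with rfl | hj0
  · exact md_zero _ A S c hS hE
  have hθr := hθ.pred
  have hS0 : S.Nonempty := Finset.card_pos.1 (by omega)
  have hSk : S.card ≤ k + 1 := hS.trans_le hj
  refine pg_exists_top' h₀ hK hunb hst hCm hs hCc (mk_ibd h₀ hK hunb hst hCm hs hCc hE)
    (hT θ (hθr.mono hr2) h₀ hK hunb hst C hCm hs hCc ι A S c hS0 hSk hE) fun σ hσ => ?_
  obtain ⟨τ, hστ, hτθ, hτr⟩ := hθ.exists_btw hσ
  have hτ := hτr.base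
  have hG' := fun u (hu : u ⊆ S) (hu0 : u.Nonempty) => hG θ τ hτθ (hθr.mono hr4) (hτr.mono hr4) h₀
    hK hunb hst C hCm hs hCc ι A u c hu0 ((Finset.card_le_card hu).trans hSk) (hE.sub hu)
  obtain ⟨hJ, hB⟩ := hG' S (Finset.Subset.refl S) hS0
  refine ⟨τ, hστ, hτ, hτθ, ?_, hB⟩
  obtain ⟨φ, h2, h3⟩ := exists_clo_good h₀ hK hunb hst hCm hs hCc hE hS0 hτ hτθ
    (fun u hu h => (hG' u hu.1 h).2) hJ
  have hτ0 := aleph0_le_pt hτ hK
  obtain ⟨χ, hχ, hχ'⟩ := hL θ τ hτθ (hθr.mono hr3) (hτr.mono hr3) h₀ hK hunb hst C hCm hs hCc (A ∅)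
    (A {c}) (A S) (hE.sys.mem (Finset.empty_subset _)) hE.memc
    (hE.sys.mem (Finset.Subset.refl S)) hE.base
    (hE.sys.mono (Finset.Subset.refl S) (Finset.empty_subset _)) hE.ind
  obtain ⟨h4, h5⟩ := h3 (fun s => φ s ∪ χ s) fun s => subset_union_left
  have hφ : ∀ s, #(φ s ∪ χ s : Set C) ≤ τ := fun s => (mk_union_le _ _).trans
    (add_le_of_le hτ0 (h2 s) (hχ s))
  refine ⟨fun s => φ s ∪ χ s, trX_of h₀ hK hunb hst hCm hs hCc hτ hτθ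
    (pgLv h₀ hK hunb hst hCm hs hCc hτ hτθ) rfl hφ h4 h5
    (tmAt_of hK hunb hst hτ (hT τ (hτr.mono hr2)) hS0 hSk) ?_⟩
  intro I _ _ _ hI z hz hzc hzτ f hf
  have hc1 := singleton_ssubset_insert hS0 hE.notMem
  refine pg_lim_pair h₀ hK hunb hst hCm hs hCc hτ hτθ h4 (fun z hz => hz.2) h5
    (chnAt_of hK hunb hst hτ (hC τ (hτr.mono hr1))) hz
    (fun i => ⟨hzc i, hzτ i⟩) (Zc.iUnion hτ0 hI z hz fun i => ⟨hzc i, hzτ i⟩) hf ?_
  refine hχ' I hI z hz (fun i => clo_right (hzc i)) hzτ f fun i B hB hBc => hf i B ?_ hBc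
  rintro x hx
  rcases hB hx with ⟨h6 | h6, h7⟩
  · exact ⟨⟨_, hc1, h6⟩, h7⟩
  · exact ⟨⟨S, Finset.ssubset_insert hE.notMem, h6⟩, h7⟩

/-- **The induction on the dimension.** -/
theorem ev_all (hC : Ev K ℓ κf α (ChnU K ℓ κf α)) (hT : Ev K ℓ κf α (TmU K ℓ κf α 1))
    (h1 : Ev2 K ℓ κf α (Tiny1 K ℓ κf α)) (hP : Ev2 K ℓ κf α (GdP K ℓ κf α))
    (hL : Ev K ℓ κf α (PtU K ℓ κf α) → Ev2 K ℓ κf α (LLU K ℓ κf α))
    (hG : Ev K ℓ κf α (PtU K ℓ κf α) → Ev2 K ℓ κf α (LLU K ℓ κf α) →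
      Ev2 K ℓ κf α (GdU K ℓ κf α 1))
    (hTX : ∀ k, 1 ≤ k → Ev K ℓ κf α (Tops K ℓ κf α k) → Ev2 K ℓ κf α (GdU K ℓ κf α k) →
      Ev K ℓ κf α (TmU K ℓ κf α k) → Ev K ℓ κf α (TmU K ℓ κf α (k + 1)))
    (hGD : ∀ k, 1 ≤ k → Ev K ℓ κf α (Tops K ℓ κf α k) → Ev2 K ℓ κf α (GdU K ℓ κf α k) →
      Ev K ℓ κf α (TmU K ℓ κf α (k + 1)) → Ev2 K ℓ κf α (GdU K ℓ κf α (k + 1))) (k : ℕ) :
    Ev K ℓ κf α (Tops K ℓ κf α k) := by
  have hpt := ev_pt hC hT h1 hP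
  have hll := hL hpt
  have key : ∀ k, 1 ≤ k → Ev K ℓ κf α (Tops K ℓ κf α k) ∧ Ev2 K ℓ κf α (GdU K ℓ κf α k) ∧
      Ev K ℓ κf α (TmU K ℓ κf α k) := by
    intro k hk
    induction k, hk using Nat.le_induction with
    | base => exact ⟨ev_tops hC hT hll (hG hpt hll), hG hpt hll, hT⟩
    | succ k hk ih =>
      obtain ⟨h2, h3, h4⟩ := ih
      have h5 := hTX k hk h2 h3 h4
      have h6 := hGD k hk h2 h3 h5
      exact ⟨ev_tops hC h5 hll h6, h6, h5⟩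
  rcases Nat.eq_zero_or_pos k with rfl | hk
  · exact ⟨0, fun θ _ => tops_zero θ⟩
  · exact (key k hk).1

end Vale.Agent.P307.R2.H301
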