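import Vale.Agent.P307.R2.H301.Din.Rows
import Vale.Agent.P307.R2.H301.Din.Rk2
import Vale.Agent.P307.R2.H827.FreeM
import Vale.Agent.P307.R2.H27.TmPg
import Vale.Agent.P307.R2.H882.Lc

/-!
Facts used in the induction on the dimension, at the base points of large rank.
-/

set_option linter.unusedSectionVars false

universe u

open FirstOrder Cardinal Set

namespace Vale.Agent.P307.R2.H301

open Vale.Agent.P307 Vale.Agent.P307.H304 Vale.Agent.P307.R2.H287 Vale.Agent.P307.R2.H1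
  Vale.Agent.P307.R2.H971 Vale.Agent.P307.R2.H804 Vale.Agent.P307.R2.H533
  Vale.Agent.P307.R2.H806 Vale.Agent.P307.R2.H718 Language.Structure Language.Substructure
  Vale.Agent.P307.R2.H650 Vale.Agent.P307.R2.H578 Vale.Agent.P307.R2.H27
open Vale.Agent.P307.R2.H541 Vale.Agent.P307.R2.H541.PG
open Vale.Agent.P307.R2.H68 (Clo exists_clo)

open scoped Classical

section props

variable {C : Type u}

/-- Joint reflection and shrinking over the boundaries of the extensions of the systems of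
dimension `1, …, n` by one direction. -/
def GdWK (n : ℕ) (M : PG C) (τ : Cardinal.{u}) : Prop :=
  ∀ (ι : Type u) (A : Finset ι → Set C) (S : Finset ι) (c : ι), S.Nonempty → S.card ≤ n →
    Ext1 M A S c → JRb M τ A S c ∧ TrR M τ (ibd A (insert c S))

/-- Shrinking of the isolating sets for the atomic tops over the boundaries of the extensions of the
systems of dimension `1, …, n` by one direction. -/
def ShEK (n : ℕ) (M : PG C) (τ : Cardinal.{u}) : Prop :=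
  ∀ (ι : Type u) (A : Finset ι → Set C) (S : Finset ι) (c : ι), S.Nonempty → S.card ≤ n →
    Ext1 M A S c → ∀ N, M.Atomic N (ibd A (insert c S)) →
      ∃ ψ, TrN M τ (ibd A (insert c S)) N ψ

variable {M : PG C} {τ : Cardinal.{u}}

theorem shEK_zero : ShEK 0 M τ := fun ι A S c hS0 hS _ _ _ => by
  have := Finset.card_pos.2 hS0
  omega

end props

section

variable {L : Language.{u, u}} {K : AEC L} {ℓ : Cardinal.{u}}
  {κf α : Cardinal.{u} → Cardinal.{u}}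

/-- Consequences on one level. -/
theorem EvL.imp {Ψ Ψ' : ∀ C : Type u, PG C → Cardinal.{u} → Prop} (h : EvL K ℓ κf α Ψ)
    (h' : ∀ C M τ, Ψ C M τ → Ψ' C M τ) : EvL K ℓ κf α Ψ' := by
  obtain ⟨r, h⟩ := h
  refine ⟨r, fun θ hθ h₀ hK hunb hst C _ hCm hs hCc => ?_⟩
  obtain ⟨τ₀, h1, h2⟩ := h θ hθ h₀ hK hunb hst C hCm hs hCc
  exact ⟨τ₀, h1, fun τ h3 hτθ hτ => h' _ _ _ (h2 τ h3 hτθ hτ)⟩

theorem EvM.imp {Φ Φ' : ∀ C : Type u, PG C → Prop} (h : EvM K ℓ κf α Φ)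
    (h' : ∀ C M, Φ C M → Φ' C M) : EvM K ℓ κf α Φ' := by
  obtain ⟨r, h⟩ := h
  exact ⟨r, fun θ hθ h₀ hK hunb hst C _ hCm hs hCc => h' _ _ (h θ hθ h₀ hK hunb hst C hCm hs hCc)⟩

/-- A property of the level `θ` as a property of the pairs of levels. -/
theorem EvM.evL {Φ : ∀ C : Type u, PG C → Prop} (h : EvM K ℓ κf α Φ) :
    EvL K ℓ κf α fun C M _ => Φ C M := by
  obtain ⟨r, h⟩ := h
  exact ⟨r, fun θ hθ h₀ hK hunb hst C _ hCm hs hCc => ⟨ℓ, h₀.pt.lt, fun _ _ _ _ =>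
    h θ hθ h₀ hK hunb hst C hCm hs hCc⟩⟩

theorem evM_chn : EvM K ℓ κf α fun _ M => Chn M := by
  obtain ⟨r, h⟩ := H882.ev_chnU (K := K) (ℓ := ℓ) (κf := κf) (α := α)
  exact ⟨r, fun θ hθ h₀ hK hunb hst C _ hCm hs hCc => h θ hθ h₀ hK hunb hst C hCm hs hCc⟩

theorem evM_free (hF : Frame K ℓ κf α) : EvM K ℓ κf α fun _ M => FreeM M :=
  ⟨0, fun θ _ h₀ hK hunb hst C _ hCm hs hCc => by
    obtain ⟨Λ, hθΛ, hΛ⟩ := hF.exists_gt θ
    exact H827.pg_freeM h₀ hK hunb hst hCm hs hCc hΛ hθΛ⟩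

theorem evM_fp (hF : Frame K ℓ κf α) (hT : EvM K ℓ κf α fun _ M => TopJK M) :
    EvM K ℓ κf α fun _ M => FP M := by
  obtain ⟨r, h⟩ := (evM_chn.and (evM_free hF)).and hT
  refine ⟨r, fun θ hθ h₀ hK hunb hst C _ hCm hs hCc => ?_⟩
  obtain ⟨Λ, hθΛ, hΛ⟩ := hF.exists_gt θ
  obtain ⟨⟨h1, h2⟩, h3⟩ := h θ hθ h₀ hK hunb hst C hCm hs hCc
  exact pg_fp h₀ hK hunb hst hCm hs hCc hΛ hθΛ h1 h2 (h3.topJ h1)

end

end Vale.Agent.P307.R2.H301
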