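import Vale.Agent.P307.R2.H301.Din.Base

/-!
Atomic models, with the shrinking of the isolating sets asked only after the density of the isolated
types.
-/

set_option linter.unusedSectionVars false

universe u

open FirstOrder Cardinal Set

namespace Vale.Agent.P307.R2.H301

open Vale.Agent.P307 Vale.Agent.P307.H304 Vale.Agent.P307.R2.H287 Vale.Agent.P307.R2.H1
  Vale.Agent.P307.R2.H971 Vale.Agent.P307.R2.H804 Vale.Agent.P307.R2.H533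
  Vale.Agent.P307.R2.H806 Vale.Agent.P307.R2.H718 Language.Structure Language.Substructure
open Vale.Agent.P307.R2.H541 Vale.Agent.P307.R2.H541.PG
open Vale.Agent.P307.R2.H68 (Clo exists_clo)

open scoped Classical

section abs

variable {C : Type u}

/-- The isolated types over `X` are dense. -/
def Dens (M : PG C) (X : Set C) : Prop := ∀ s ⊆ X, #s < M.χ → ∀ E : Set C, #E < M.χ →
  ∃ g ∈ M.G, (∀ a ∈ s, g a = a) ∧ ∃ B ⊆ X, #B < M.χ ∧ M.Isol B X (g '' E)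

variable {M : PG C}

theorem Dens.of_atomic {N X : Set C} (h : M.Atomic N X) : Dens M X := by
  intro s hs hsc E hE
  obtain ⟨g, hg, h1, h2⟩ := M.sat h.mem (hs.trans h.sub) hsc hE
  obtain ⟨B, h3, h4, h5⟩ := h.iso (g '' E) (by
    rintro _ ⟨e, he, rfl⟩
    exact h2 e he) (mk_image_le.trans_lt hE)
  exact ⟨g, hg, h1, B, h3, h4, h5⟩

/-- **Atomic models** over a set `X` whose closed traces, of cofinally many sizes, behave well. -/
theorem exists_topD {X : Set C} (hχ : ℵ₀ < M.χ) (hX : #X = M.χ)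
    (hTi : ∀ g ∈ M.G, ∀ R ∈ M.T, (g : C → C) '' R ∈ M.T)
    (hL : ∀ A : Set C, #A < M.χ → ∃ R ∈ M.T, A ⊆ R)
    (hU : ∀ R : ℕ → Set C, Monotone R → (∀ n, R n ∈ M.T) → #(⋃ n, R n : Set C) = M.χ →
      (⋃ n, R n) ∈ M.S)
    (hFew : ∀ σ < M.χ, ∃ ν < M.χ, σ ≤ ν ∧ ∀ E : Set C, #E ≤ σ → ∀ z : Set C, #z ≤ ν →
      ∀ J : Type u, ν < #J → ∀ k : J → Equiv.Perm C, (∀ j, k j ∈ M.G) →
      ∃ j j', j ≠ j' ∧ ∃ h ∈ M.G, (∀ a ∈ z, h a = a) ∧ ∀ e ∈ E, h (k j e) = k j' e)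
    (hTm : M.Tm X)
    (hLv : ∀ σ < M.χ, ∃ τ, σ < τ ∧ ∃ Λ : Lv M τ, (∃ φ, TrX Λ X φ) ∧ (Dens M X → TrR M τ X)) :
    ∃ N, M.Atomic N X := by
  have hd : ∀ σ < M.χ, ∀ s ⊆ X, #s ≤ σ → ∀ E : Set C, #E ≤ σ →
      ∃ g ∈ M.G, (∀ a ∈ s, g a = a) ∧ ∃ B ⊆ X, #B < M.χ ∧ M.Isol B X (g '' E) := by
    intro σ hσ s hs hsc E hE
    obtain ⟨H, hH, hTH⟩ := hTm σ hσ
    obtain ⟨ν, hν, h1, h2⟩ := hFew (max (max ℵ₀ σ) H) (max_lt (max_lt hχ hσ) hH)
    obtain ⟨τ, hντ, Λ, ⟨φ, hφ⟩, -⟩ := hLv ν hν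
    have hσν : σ ≤ ν := ((le_max_right _ _).trans (le_max_left _ _)).trans h1
    refine hφ.dens (σ := σ) (((le_max_left _ _).trans (le_max_left _ _)).trans h1) hσν hντ
      (fun E hE g hg h => hTH E hE g hg fun A hA hAH => h A hA (hAH.trans
        ((le_max_right _ _).trans h1))) (fun E hE z _ hz J hJ k hk => h2 E
          (hE.trans ((le_max_right _ _).trans (le_max_left _ _))) z hz J hJ k hk) hs hsc hE
  have hd' : Dens M X := fun s hs hsc E hEc =>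
    hd _ (max_lt hsc hEc) s hs (le_max_left _ _) E (le_max_right _ _)
  exact exists_topR hχ hX hTi hL hU hFew hTm fun σ hσ => by
    obtain ⟨τ, h1, Λ, h2, h3⟩ := hLv σ hσ
    exact ⟨τ, h1, Λ, h2, h3 hd'⟩

end abs

variable {L : Language.{u, u}} {K : AEC L} {ℓ θ τ : Cardinal.{u}}
  {κf α : Cardinal.{u} → Cardinal.{u}} {C : Type u} [L.Structure C]

section

variable (h₀ : BasePt K ℓ κf α θ) (hK : K.IsLS ℓ)
  (hunb : ∀ ν, ν < κf ν ∧ K.CategoricalIn (κf ν)) (hst : Stab K ℓ α (H287.thr κf))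
  (hCm : K.mem C) (hs : Sat K θ C) (hCc : #C = Order.succ θ)

variable {ι : Type u} {A : Finset ι → Set C} {S : Finset ι} {c : ι}

/-- **The engine**, with density. -/
theorem exists_atomic_ofD (hE : Ext1 (pg h₀ hK hunb hst hCm hs hCc) A S c) (hS : S.Nonempty)
    (hTm : (pg h₀ hK hunb hst hCm hs hCc).Tm (ibd A (insert c S)))
    (h : ∀ σ < θ, ∃ τ, σ < τ ∧ ∃ (hτ : BasePt K ℓ κf α τ) (_ : τ < θ),
      TmAt hK hunb hst hτ C S c ∧ JRb (pg h₀ hK hunb hst hCm hs hCc) τ A S c ∧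
      (∀ u, u ⊆ S → u.Nonempty → Dens (pg h₀ hK hunb hst hCm hs hCc) (ibd A (insert c u)) →
        TrR (pg h₀ hK hunb hst hCm hs hCc) τ (ibd A (insert c u))) ∧
      ∃ χ : Finset C → Set C, (∀ s, #(χ s) ≤ τ) ∧ ∀ ψ : Finset C → Set C, (∀ s, χ s ⊆ ψ s) →
        Good1 (pg h₀ hK hunb hst hCm hs hCc) τ A S c {H | Clo ψ H ∧ #H ≤ τ} →
        StrZ K τ A S c {H | Clo ψ H ∧ #H ≤ τ} →
          LimP (pg h₀ hK hunb hst hCm hs hCc) τ (ibd A (insert c S)) ψ) :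
    ∃ N, (pg h₀ hK hunb hst hCm hs hCc).Atomic N (ibd A (insert c S)) := by
  refine exists_topD (hK.1.trans_lt h₀.pt.lt) (mk_ibd h₀ hK hunb hst hCm hs hCc hE)
    (pg_T_inv h₀ hK hunb hst hCm hs hCc) (pg_small_sub h₀ hK hunb hst hCm hs hCc)
    (pg_union_card h₀ hK hunb hst hCm hs hCc) (pg_few' h₀ hK hunb hst hCm hs hCc) hTm
    fun σ hσ => ?_
  obtain ⟨τ, hστ, hτ, hτθ, hT, hJ, hG, χ, hχ, hχ'⟩ := h σ hσ
  refine ⟨τ, hστ, pgLv h₀ hK hunb hst hCm hs hCc hτ hτθ, ?_, hG S (Finset.Subset.refl S) hS⟩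
  obtain ⟨φ, h2, h3⟩ := exists_clo_goodR h₀ hK hunb hst hCm hs hCc hE hS hτ hτθ
    (fun u hu h => hG u hu.1 h (Dens.of_atomic (hE.atomic u hu h))) hJ
  have hτ0 := aleph0_le_pt hτ hK
  obtain ⟨h4, h5⟩ := h3 (fun s => φ s ∪ χ s) fun s => subset_union_left
  have hφ : ∀ s, #(φ s ∪ χ s : Set C) ≤ τ := fun s => (mk_union_le _ _).trans
    (add_le_of_le hτ0 (h2 s) (hχ s))
  exact ⟨fun s => φ s ∪ χ s, trX_of h₀ hK hunb hst hCm hs hCc hτ hτθ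
    (pgLv h₀ hK hunb hst hCm hs hCc hτ hτθ) rfl hφ h4 h5 hT
    (hχ' _ (fun s => subset_union_right) h4 h5)⟩

end

end Vale.Agent.P307.R2.H301
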