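import Vale.Agent.P307.R2.H301.Din.Asm
import Vale.Agent.P307.R2.H718.Ladder

/-!
The question from the rows of the induction on the dimension.
-/

universe u

open FirstOrder Cardinal Set

namespace Vale.Agent.P307.R2.H301

open Vale.Agent.P307 Vale.Agent.P307.H304 Vale.Agent.P307.R2.H287 Vale.Agent.P307.R2.H1
  Vale.Agent.P307.R2.H718

variable {L : Language.{u, u}} (K : AEC L) (ℓ : Cardinal.{u})
  (κf α : Cardinal.{u} → Cardinal.{u})

/-- The rows of the induction on the dimension. -/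
structure Rows : Prop where
  /-- Chains. -/
  lc : Ev K ℓ κf α (ChnU K ℓ κf α)
  /-- Types over pairs of models. -/
  tx2 : Ev K ℓ κf α (TmU K ℓ κf α 1)
  /-- Tiny isolating sets in dimension one. -/
  tiny : Ev2 K ℓ κf α (Tiny1 K ℓ κf α)
  /-- Closed traces of the pairs one of which is generated by finitely many points. -/
  gdp : Ev2 K ℓ κf α (GdP K ℓ κf α)
  /-- The limit lemma for pairs. -/
  ll : Ev K ℓ κf α (PtU K ℓ κf α) → Ev2 K ℓ κf α (LLU K ℓ κf α)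
  /-- Closed traces of the pairs. -/
  gd1 : Ev K ℓ κf α (PtU K ℓ κf α) → Ev2 K ℓ κf α (LLU K ℓ κf α) → Ev2 K ℓ κf α (GdU K ℓ κf α 1)
  /-- Types over boundaries. -/
  tx : ∀ k, 1 ≤ k → Ev K ℓ κf α (Tops K ℓ κf α k) → Ev2 K ℓ κf α (GdU K ℓ κf α k) →
    Ev K ℓ κf α (TmU K ℓ κf α k) → Ev K ℓ κf α (TmU K ℓ κf α (k + 1))
  /-- Closed traces of the boundaries. -/
  gd : ∀ k, 1 ≤ k → Ev K ℓ κf α (Tops K ℓ κf α k) → Ev2 K ℓ κf α (GdU K ℓ κf α k) →
    Ev K ℓ κf α (TmU K ℓ κf α (k + 1)) → Ev2 K ℓ κf α (GdU K ℓ κf α (k + 1))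

/-- **The question** from the rows. -/
theorem q1_of_rows (H : ∀ (L : Language.{u, u}) (K : AEC L) (ℓ : Cardinal.{u})
      (κf α : Cardinal.{u} → Cardinal.{u}), Frame K ℓ κf α → Rows K ℓ κf α) (l : Cardinal.{u}) :
    ∃ μ : Cardinal.{u}, l ≤ μ ∧ ∀ (L : Language.{u, u}) (K : AEC L), K.LS ≤ l →
      ∀ κ, μ ≤ κ → K.CategoricalIn κ → ∀ κ', μ ≤ κ' → K.CategoricalIn κ' :=
  q1_of_tops (fun L K ℓ κf α hF k => by
    have h := H L K ℓ κf α hF
    exact ev_all h.lc h.tx2 h.tiny h.gdp h.ll h.gd1 h.tx h.gd k) l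

end Vale.Agent.P307.R2.H301
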