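import Vale.Agent.P307.R2.H301.Din.Asm
import Vale.Agent.P307.R2.H427.Tiny1

/-!
The rows of the induction on the dimension.
-/

universe u

open FirstOrder Cardinal Set

namespace Vale.Agent.P307.R2.H301

open Vale.Agent.P307 Vale.Agent.P307.H304 Vale.Agent.P307.R2.H287 Vale.Agent.P307.R2.H1
  Vale.Agent.P307.R2.H971 Vale.Agent.P307.R2.H804 Vale.Agent.P307.R2.H533
  Vale.Agent.P307.R2.H806 Vale.Agent.P307.R2.H718 Language.Structure Language.Substructure
open Vale.Agent.P307.R2.H541 Vale.Agent.P307.R2.H541.PG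

open scoped Classical

/-- The boundary in dimension two. -/
theorem ibd_one {C : Type u} {M : PG C} {ι : Type u} {A : Finset ι → Set C} {S : Finset ι} {c : ι}
    (hE : Ext1 M A S c) (hS : S.card = 1) : ibd A (insert c S) = A {c} ∪ A S := by
  have hS0 : S.Nonempty := Finset.card_pos.1 (by omega)
  ext x
  constructor
  · rintro ⟨t, ht, hx⟩
    rcases face_cases hE.notMem ht with h1 | ⟨u, hu, rfl⟩
    · exact Or.inr (hE.sys.mono (Finset.Subset.refl S) h1 hx)
    · have h2 := Finset.card_lt_card hu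
      have h3 : u = ∅ := Finset.card_eq_zero.1 (by omega)
      subst h3
      exact Or.inl hx
  · rintro (hx | hx)
    · refine ⟨{c}, ?_, hx⟩
      refine Finset.ssubset_iff_subset_ne.2 ⟨Finset.singleton_subset_iff.2
        (Finset.mem_insert_self c S), fun h => ?_⟩
      obtain ⟨a, ha⟩ := hS0
      have h1 : a ∈ ({c} : Finset ι) := h ▸ Finset.mem_insert_of_mem ha
      rw [Finset.mem_singleton.1 h1] at ha
      exact hE.notMem ha
    · exact ⟨S, Finset.ssubset_insert hE.notMem, hx⟩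

variable {L : Language.{u, u}} {K : AEC L} {ℓ : Cardinal.{u}}
  {κf α : Cardinal.{u} → Cardinal.{u}}

/-- Types over pairs of models. -/
theorem tmU_one (θ : Cardinal.{u}) : TmU K ℓ κf α 1 θ := by
  intro h₀ hK hunb hst C _ hCm hs hCc ι A S c hS0 hS hE
  have h1 := Finset.card_pos.2 hS0
  rw [ibd_one hE (by omega), union_comm]
  have h2 := pg_tm_two h₀ hK hunb hst hCm hs hCc (hE.sys.mem (Finset.empty_subset _)) hE.memc
    (hE.sys.mem (Finset.Subset.refl S)) hE.base
    (hE.sys.mono (Finset.Subset.refl S) (Finset.empty_subset _)) hE.ind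
  rwa [union_comm] at h2

theorem ev_tx2 : Ev K ℓ κf α (TmU K ℓ κf α 1) := ⟨0, fun θ _ => tmU_one θ⟩

/-- Tiny isolating sets in dimension one. -/
theorem ev2_tiny1 (hF : Frame K ℓ κf α) : Ev2 K ℓ κf α (Tiny1 K ℓ κf α) := by
  refine ⟨0, fun θ τ hτθ _ hτ => ?_⟩
  intro h₀ hK hunb hst C _ hCm hs hCc P N p hP hp hN E hE hEc
  obtain ⟨Λ, hθΛ, hΛ⟩ := hF.exists_gt θ
  exact H427.pg_tiny1 h₀ hK hunb hst hCm hs hCc hΛ hθΛ hτ.base hτθ hP hp hN hE hEc

end Vale.Agent.P307.R2.H301
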