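import Vale.Agent.P307.R2.H301.Din.Top
import Vale.Agent.P307.R2.H427.MapPG
import Vale.Agent.P307.R2.H229.Few
import Vale.Agent.P307.R2.H541.Ext
import Vale.Agent.P307.R2.H913.ChnPg

/-!
The levels of the saturated member of size `θ⁺`, and the atomic models over the sets with good
closed traces.
-/

set_option linter.unusedSectionVars false

universe u

open FirstOrder Cardinal Set

namespace Vale.Agent.P307.R2.H301

open Vale.Agent.P307 Vale.Agent.P307.H304 Vale.Agent.P307.R2.H287 Vale.Agent.P307.R2.H1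
  Vale.Agent.P307.R2.H971 Vale.Agent.P307.R2.H804 Language.Structure Language.Substructure
open Vale.Agent.P307.R2.H541 Vale.Agent.P307.R2.H541.PG
open Vale.Agent.P307.R2.H68 (Clo exists_clo)

variable {L : Language.{u, u}} {K : AEC L} {ℓ θ τ : Cardinal.{u}}
  {κf α : Cardinal.{u} → Cardinal.{u}} {C : Type u} [L.Structure C]

/-- The strong submodels of size less than `τ`. -/
def mT (K : AEC L) (τ : Cardinal.{u}) (C : Type u) [L.Structure C] : Set (Set C) :=
  {N | ∃ D : L.Substructure C, K.le D ∧ #D < τ ∧ (D : Set C) = N}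

section

variable (h₀ : BasePt K ℓ κf α θ) (hK : K.IsLS ℓ)
  (hunb : ∀ ν, ν < κf ν ∧ K.CategoricalIn (κf ν)) (hst : Stab K ℓ α (H287.thr κf))
  (hCm : K.mem C) (hs : Sat K θ C) (hCc : #C = Order.succ θ)

include h₀ hCm hs hCc in
/-- Maps of tame sets which preserve the types of the tiny pieces are elementary. -/
theorem emp_of_tmA (hτ : BasePt K ℓ κf α τ) (hτθ : τ < θ) {X : Set C} (hX : #X ≤ τ)
    (hT : TmA hK hunb hst hτ X) {f : C → C}
    (hf : ∀ A ⊆ X, #A < τ → ∃ g ∈ (pg h₀ hK hunb hst hCm hs hCc).G, ∀ a ∈ A, g a = f a) :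
    EMp L τ X f := by
  obtain ⟨C', hC', hC'c, hC's, hXC', -, g, hg, hgf⟩ := exists_low_aut h₀ hK hunb hst hCm hs hCc
    hτ hτθ (Y := ∅) hX (by simp) hf hT
  have h1 := low_emp h₀ hK hunb hst hCm hs hCc hτ hτθ hC' hC'c hC's (g := g) hg
    (z := PG.tr (C' : Set C) X) ((PG.mk_tr_le (D := (C' : Set C)) X).trans hX) (f := f)
    fun x hx => (hgf x hx).symm
  have h2 : Subtype.val '' PG.tr (C' : Set C) X = X := PG.image_tr hXC'
  have h3 : EMp L τ (Subtype.val '' PG.tr (C' : Set C) X) f := h1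
  rwa [h2] at h3

include h₀ hCm hs hCc in
/-- Few types. -/
theorem pg_hFew : ∀ σ < θ, ∃ ν < θ, σ ≤ ν ∧ ∀ E : Set C, #E ≤ σ → ∀ z : Set C, #z ≤ ν →
      ∀ J : Type u, ν < #J → ∀ k : J → Equiv.Perm C,
        (∀ j, k j ∈ (pg h₀ hK hunb hst hCm hs hCc).G) →
      ∃ j j', j ≠ j' ∧ ∃ h ∈ (pg h₀ hK hunb hst hCm hs hCc).G, (∀ a ∈ z, h a = a) ∧
        ∀ e ∈ E, h (k j e) = k j' e := by
  intro σ hσ
  have hθ := aleph0_le_pt h₀ hK
  let m : Cardinal.{u} := max ℓ σ
  have hm : m < θ := max_lt h₀.pt.lt hσ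
  have hm0 : ℵ₀ ≤ m := hK.1.trans (le_max_left _ _)
  have hmν : m ≤ 2 ^ m := (cantor m).le
  refine ⟨2 ^ m, h₀.pow m hm, (le_max_right _ _).trans hmν, fun E hE z hz J hJ k _ => ?_⟩
  refine pg_few h₀ hK hunb hst hCm hs hCc (σ := m) hm0 ((le_max_left _ _).trans hmν)
    (h₀.pow m hm) ?_ (hE.trans (le_max_right _ _)) hz hJ k
  rw [← power_mul, mul_eq_self hm0]

end

end Vale.Agent.P307.R2.H301
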